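import Vale.Agent.P281Z.Hm.MCalc
import Mathlib.Analysis.Calculus.BumpFunction.InnerProduct
import Mathlib.MeasureTheory.Integral.Bochner.Set
import Mathlib.MeasureTheory.Measure.Lebesgue.Complex
import Mathlib.Analysis.Complex.CauchyIntegral

/-!
# P275, block GC: compact Riemann surfaces with a finite atlas of discs, definitions
-/

set_option linter.unusedSectionVars false

open scoped Topology ComplexConjugate ContDiff Matrix.Norms.Operator ComplexOrder
open Set Filter Metric MeasureTheory Complex Matrix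

noncomputable section

namespace Vale.Agent.P275GC

open Vale.Agent.P281Z.Hm

/-- a finite holomorphic atlas by discs of radius `R > 1` such that the open unit discs cover -/
structure At (C : Type) [TopologicalSpace C] where
  N : ℕ
  R : ℝ
  hR : 1 < R
  e : Fin N → OpenPartialHomeomorph C ℂ
  tgt : ∀ i, (e i).target = ball 0 R
  cov : ∀ x, ∃ i, x ∈ (e i).source ∧ ‖e i x‖ < 1
  hol : ∀ i j, DifferentiableOn ℂ (fun z => e j ((e i).symm z))
    (ball 0 R ∩ (e i).symm ⁻¹' (e j).source)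

/-- the bump function: positive exactly on the open unit disc -/
def bp : ContDiffBump (0 : ℂ) := ⟨1 / 2, 1, one_half_pos, one_half_lt_one⟩

namespace At

variable {C : Type} [TopologicalSpace C] (A : At C)

/-- the overlap of the charts `i` and `j`, seen in the chart `i` -/
def O (i j : Fin A.N) : Set ℂ := ball 0 A.R ∩ (A.e i).symm ⁻¹' (A.e j).source

/-- the transition map from the chart `i` to the chart `j` -/
def tr (i j : Fin A.N) (z : ℂ) : ℂ := A.e j ((A.e i).symm z)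

/-- its derivative, the cocycle of the canonical bundle -/
def d (i j : Fin A.N) (z : ℂ) : ℂ := deriv (A.tr i j) z

/-- extension by zero of a function of the coordinate of the chart `i` -/
def ext {F : Type} [Zero F] (i : Fin A.N) (u : ℂ → F) : C → F :=
  (A.e i).source.indicator fun x => u (A.e i x)

/-- the normalising sum -/
def S (x : C) : ℝ := ∑ j, A.ext j (fun z => bp z ^ 2) x

/-- the square roots of the partition of unity, in the chart `i` -/
def η (i : Fin A.N) (z : ℂ) : ℝ := bp z / √(A.S ((A.e i).symm z))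

/-- the partition of unity, in the chart `i` -/
def χ (i : Fin A.N) (z : ℂ) : ℝ := A.η i z ^ 2

/-- the partition of unity on `C` -/
def ψ (i : Fin A.N) : C → ℝ := A.ext i (A.χ i)

/-- the `j`-th function of the partition of unity in the chart `i` -/
def φ (j i : Fin A.N) (z : ℂ) : ℝ := A.ψ j ((A.e i).symm z)

/-- functions -/
def Fn {F : Type} (u : Fin A.N → ℂ → F) : Prop := ∀ i j, ∀ z ∈ A.O i j, u i z = u j (A.tr i j z)

/-- `F` valued sections of the line bundle with cocycle `l` -/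
def Sec {F : Type} [SMul ℂ F] (l : Fin A.N → Fin A.N → ℂ → ℂ) (u : Fin A.N → ℂ → F) : Prop :=
  ∀ i j, ∀ z ∈ A.O i j, u i z = l i j z • u j (A.tr i j z)

/-- `(1,0)`-forms -/
def F10 {F : Type} [SMul ℂ F] (u : Fin A.N → ℂ → F) : Prop := A.Sec A.d u

/-- `(0,1)`-forms -/
def F01 {F : Type} [SMul ℂ F] (u : Fin A.N → ℂ → F) : Prop :=
  A.Sec (fun i j z => conj (A.d i j z)) u

/-- densities -/
def Dn {F : Type} [SMul ℝ F] (u : Fin A.N → ℂ → F) : Prop :=
  ∀ i j, ∀ z ∈ A.O i j, u i z = normSq (A.d i j z) • u j (A.tr i j z)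

/-- continuous families -/
def Ct {F : Type} [TopologicalSpace F] (u : Fin A.N → ℂ → F) : Prop :=
  ∀ i, ContinuousOn (u i) (ball 0 A.R)

/-- families of class `C^k` -/
def Sm {F : Type} [NormedAddCommGroup F] [NormedSpace ℝ F] (k : WithTop ℕ∞)
    (u : Fin A.N → ℂ → F) : Prop := ∀ i, ContDiffOn ℝ k (u i) (ball 0 A.R)

/-- holomorphic families -/
def Hl {F : Type} [NormedAddCommGroup F] [NormedSpace ℂ F] (u : Fin A.N → ℂ → F) : Prop :=
  ∀ i, DifferentiableOn ℂ (u i) (ball 0 A.R)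

/-- the integral of a density for the Lebesgue measure `dx dy` of the charts -/
def int {F : Type} [NormedAddCommGroup F] [NormedSpace ℝ F] (u : Fin A.N → ℂ → F) : F :=
  ∑ i, ∫ z, A.χ i z • u i z

/-- holomorphic cocycles; sections satisfy `s i z = g i j z * s j (tr i j z)` -/
structure Cc {R : Type} [NormedAddCommGroup R] [NormedSpace ℂ R] [Monoid R]
    (g : Fin A.N → Fin A.N → ℂ → R) : Prop where
  hol : ∀ i j, DifferentiableOn ℂ (g i j) (A.O i j)
  one : ∀ i, ∀ z ∈ ball (0 : ℂ) A.R, g i i z = 1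
  mul : ∀ i j k, ∀ z ∈ A.O i j, z ∈ A.O i k → g i k z = g i j z * g j k (A.tr i j z)

/-- metrics of class `C^k` on a line bundle: `h i z * normSq (s i z)` is a function -/
structure Mt (k : WithTop ℕ∞) (l : Fin A.N → Fin A.N → ℂ → ℂ) (h : Fin A.N → ℂ → ℝ) : Prop where
  sm : A.Sm k h
  pos : ∀ i, ∀ z ∈ ball (0 : ℂ) A.R, 0 < h i z
  tr : ∀ i j, ∀ z ∈ A.O i j, h j (A.tr i j z) = normSq (l i j z) * h i z

/-- metrics of class `C^k` on a vector bundle: `star s ⬝ᵥ H *ᵥ s` is a function -/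
structure MtM {n : Type} [Fintype n] [DecidableEq n] (k : WithTop ℕ∞)
    (g : Fin A.N → Fin A.N → ℂ → Mx n) (H : Fin A.N → ℂ → Mx n) : Prop where
  sm : A.Sm k H
  pos : ∀ i, ∀ z ∈ ball (0 : ℂ) A.R, (H i z).PosDef
  tr : ∀ i j, ∀ z ∈ A.O i j, H j (A.tr i j z) = (g i j z)ᴴ * H i z * g i j z

/-- the canonical smooth metric of a line bundle -/
def mt (l : Fin A.N → Fin A.N → ℂ → ℂ) (i : Fin A.N) (z : ℂ) : ℝ :=
  ∑ j, A.φ j i z * normSq (l j i (A.tr i j z))

/-- the canonical smooth metric of a vector bundle -/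
def mtM {n : Type} [Fintype n] (g : Fin A.N → Fin A.N → ℂ → Mx n) (i : Fin A.N) (z : ℂ) : Mx n :=
  ∑ j, (A.φ j i z : ℂ) • ((g j i (A.tr i j z))ᴴ * g j i (A.tr i j z))

/-- the canonical smooth positive density -/
def ρ (i : Fin A.N) (z : ℂ) : ℝ := ∑ j, A.φ j i z * normSq (A.d i j z)

/-- the curvature density `- ∂̄ ∂ log h` of a metric on a line bundle -/
def cv (h : Fin A.N → ℂ → ℝ) (i : Fin A.N) (z : ℂ) : ℝ :=
  -(wb 1 (wd 1 fun w => (Real.log (h i w) : ℂ)) z).re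

/-- the degree of a line bundle -/
def deg (l : Fin A.N → Fin A.N → ℂ → ℂ) : ℝ := Real.pi⁻¹ * A.int (A.cv (A.mt l))

/-- the degree of a vector bundle -/
def degM {n : Type} [Fintype n] [DecidableEq n] (g : Fin A.N → Fin A.N → ℂ → Mx n) : ℝ :=
  A.deg fun i j z => (g i j z).det

/-- the same atlas with smaller discs -/
def res (r : ℝ) (h1 : 1 < r) (h2 : r ≤ A.R) : At C where
  N := A.N
  R := r
  hR := h1
  e i := ((A.e i).symm.restrOpen (ball 0 r) isOpen_ball).symm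
  tgt i := by
    show (A.e i).target ∩ ball 0 r = ball 0 r
    rw [A.tgt, inter_eq_right.2 (ball_subset_ball h2)]
  cov x := by
    obtain ⟨i, a, b⟩ := A.cov x
    exact ⟨i, ⟨a, mem_ball_zero_iff.2 (b.trans h1)⟩, b⟩
  hol i j := (A.hol i j).mono fun _ hz => ⟨ball_subset_ball h2 hz.1, hz.2.1⟩

/-- a chart whose unit disc contains the point `z` of the chart `i` -/
def pick (i : Fin A.N) (z : ℂ) : Fin A.N := (A.cov ((A.e i).symm z)).choose

/-- extension of a family from smaller discs, for transition rules `T` -/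
def xt {F : Type} (T : Fin A.N → Fin A.N → ℂ → F → F) (u : Fin A.N → ℂ → F) (i : Fin A.N)
    (z : ℂ) : F := T i (A.pick i z) z (u (A.pick i z) (A.tr i (A.pick i z) z))

variable {A} {i j k : Fin A.N} {z : ℂ} {x : C}

theorem mem_tgt : z ∈ (A.e i).target ↔ z ∈ ball (0 : ℂ) A.R := by rw [A.tgt]

theorem map_src (h : x ∈ (A.e i).source) : A.e i x ∈ ball (0 : ℂ) A.R :=
  mem_tgt.1 ((A.e i).map_source h)

theorem map_tgt (h : z ∈ ball (0 : ℂ) A.R) : (A.e i).symm z ∈ (A.e i).source :=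
  (A.e i).map_target (mem_tgt.2 h)

theorem rinv (h : z ∈ ball (0 : ℂ) A.R) : A.e i ((A.e i).symm z) = z :=
  (A.e i).right_inv (mem_tgt.2 h)

theorem cont_symm (i : Fin A.N) : ContinuousOn (A.e i).symm (ball 0 A.R) :=
  A.tgt i ▸ (A.e i).continuousOn_symm

theorem contAt_symm (h : z ∈ ball (0 : ℂ) A.R) : ContinuousAt (A.e i).symm z :=
  (cont_symm i).continuousAt (isOpen_ball.mem_nhds h)

theorem O_open (i j : Fin A.N) : IsOpen (A.O i j) :=
  (cont_symm i).isOpen_inter_preimage isOpen_ball (A.e j).open_source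

theorem O_nhds (h : z ∈ A.O i j) : A.O i j ∈ 𝓝 z := (O_open i j).mem_nhds h

theorem O_ball (h : z ∈ A.O i j) : z ∈ ball (0 : ℂ) A.R := h.1

theorem O_self (h : z ∈ ball (0 : ℂ) A.R) : z ∈ A.O i i := ⟨h, map_tgt h⟩

theorem mem_O (hi : x ∈ (A.e i).source) (hj : x ∈ (A.e j).source) : A.e i x ∈ A.O i j :=
  ⟨map_src hi, by rwa [mem_preimage, (A.e i).left_inv hi]⟩

theorem tr_e (hi : x ∈ (A.e i).source) : A.tr i j (A.e i x) = A.e j x := by
  rw [tr, (A.e i).left_inv hi]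

theorem symm_tr (h : z ∈ A.O i j) : (A.e j).symm (A.tr i j z) = (A.e i).symm z :=
  (A.e j).left_inv h.2

theorem tr_ball (h : z ∈ A.O i j) : A.tr i j z ∈ ball (0 : ℂ) A.R := map_src h.2

theorem tr_O (h : z ∈ A.O i j) (h' : z ∈ A.O i k) : A.tr i j z ∈ A.O j k :=
  ⟨tr_ball h, by rw [mem_preimage, symm_tr h]; exact h'.2⟩

theorem O_of_tr (h : z ∈ A.O i j) (h' : A.tr i j z ∈ A.O j k) : z ∈ A.O i k :=
  ⟨h.1, by have := h'.2; rwa [mem_preimage, symm_tr h] at this⟩

theorem tr_mem (h : z ∈ A.O i j) : A.tr i j z ∈ A.O j i := tr_O h (O_self h.1)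

theorem tr_self (h : z ∈ ball (0 : ℂ) A.R) : A.tr i i z = z := rinv h

theorem tr_tr (h : z ∈ A.O i j) : A.tr j k (A.tr i j z) = A.tr i k z := by
  rw [tr, symm_tr h, tr]

theorem tr_inv (h : z ∈ A.O i j) : A.tr j i (A.tr i j z) = z := by rw [tr_tr h, tr_self h.1]

theorem an_tr (h : z ∈ A.O i j) : AnalyticAt ℂ (A.tr i j) z :=
  (A.hol i j).analyticAt (O_nhds h)

theorem df_tr (h : z ∈ A.O i j) : DifferentiableAt ℂ (A.tr i j) z := (an_tr h).differentiableAt

theorem has_tr (h : z ∈ A.O i j) : HasDerivAt (A.tr i j) (A.d i j z) z := (df_tr h).hasDerivAt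

theorem an_d (h : z ∈ A.O i j) : AnalyticAt ℂ (A.d i j) z := (an_tr h).deriv

theorem pick_spec (h : z ∈ ball (0 : ℂ) A.R) (i : Fin A.N) :
    z ∈ A.O i (A.pick i z) ∧ ‖A.tr i (A.pick i z) z‖ < 1 :=
  ⟨⟨h, (A.cov ((A.e i).symm z)).choose_spec.1⟩, (A.cov ((A.e i).symm z)).choose_spec.2⟩

theorem unit_sub (A : At C) : closedBall (0 : ℂ) 1 ⊆ ball 0 A.R := closedBall_subset_ball A.hR

theorem mem_of_le (h : ‖z‖ ≤ 1) : z ∈ ball (0 : ℂ) A.R := mem_ball_zero_iff.2 (h.trans_lt A.hR)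

/-- every point of a chart lies in a unit disc of the atlas -/
theorem ex_unit (h : z ∈ ball (0 : ℂ) A.R) (i : Fin A.N) : ∃ j, z ∈ A.O i j ∧ ‖A.tr i j z‖ < 1 := by
  obtain ⟨j, a, b⟩ := A.cov ((A.e i).symm z)
  exact ⟨j, ⟨h, a⟩, b⟩

theorem Cc.an {R : Type} [NormedAddCommGroup R] [NormedSpace ℂ R] [Monoid R] [CompleteSpace R]
    {g : Fin A.N → Fin A.N → ℂ → R} (hg : A.Cc g) (h : z ∈ A.O i j) : AnalyticAt ℂ (g i j) z :=
  (hg.hol i j).analyticAt (O_nhds h)

theorem Cc.inv {R : Type} [NormedAddCommGroup R] [NormedSpace ℂ R] [Monoid R]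
    {g : Fin A.N → Fin A.N → ℂ → R} (hg : A.Cc g) (h : z ∈ A.O i j) :
    g i j z * g j i (A.tr i j z) = 1 := by
  rw [← hg.mul i j i z h (O_self h.1), hg.one i z h.1]

theorem Cc.inv' {R : Type} [NormedAddCommGroup R] [NormedSpace ℂ R] [Monoid R]
    {g : Fin A.N → Fin A.N → ℂ → R} (hg : A.Cc g) (h : z ∈ A.O i j) :
    g j i (A.tr i j z) * g i j z = 1 := by
  have := hg.inv (tr_mem h)
  rwa [tr_inv h] at this

theorem Cc.ne {l : Fin A.N → Fin A.N → ℂ → ℂ} (hl : A.Cc l) (h : z ∈ A.O i j) : l i j z ≠ 0 :=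
  left_ne_zero_of_mul_eq_one (hl.inv h)

/-- the canonical bundle -/
theorem cc_d (A : At C) : A.Cc A.d where
  hol _ _ _ h := (an_d h).differentiableAt.differentiableWithinAt
  one i z h := by
    have e : A.tr i i =ᶠ[𝓝 z] id :=
      eventually_of_mem (isOpen_ball.mem_nhds h) fun w hw => tr_self hw
    rw [d, e.deriv_eq, deriv_id]
  mul i j k z h h' := by
    have e : A.tr i k =ᶠ[𝓝 z] A.tr j k ∘ A.tr i j :=
      eventually_of_mem (O_nhds h) fun w hw => (tr_tr hw).symm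
    rw [d, e.deriv_eq, ((has_tr (tr_O h h')).comp z (has_tr h)).deriv, mul_comm]

theorem d_ne (h : z ∈ A.O i j) : A.d i j z ≠ 0 := A.cc_d.ne h

theorem cc_one (A : At C) {R : Type} [NormedAddCommGroup R] [NormedSpace ℂ R] [Monoid R] :
    A.Cc fun _ _ _ => (1 : R) :=
  ⟨fun _ _ => differentiableOn_const _, fun _ _ _ => rfl, fun _ _ _ _ _ _ => (mul_one _).symm⟩

section line
variable {l m : Fin A.N → Fin A.N → ℂ → ℂ}

theorem Cc.tens (hl : A.Cc l) (hm : A.Cc m) : A.Cc fun i j z => l i j z * m i j z where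
  hol i j := (hl.hol i j).mul (hm.hol i j)
  one i z h := by rw [hl.one i z h, hm.one i z h, one_mul]
  mul i j k z h h' := by rw [hl.mul i j k z h h', hm.mul i j k z h h']; ring

theorem Cc.dual (hl : A.Cc l) : A.Cc fun i j z => (l i j z)⁻¹ where
  hol i j := (hl.hol i j).inv fun _ h => hl.ne h
  one i z h := by rw [hl.one i z h, inv_one]
  mul i j k z h h' := by rw [hl.mul i j k z h h', mul_inv]

theorem Cc.pow (hl : A.Cc l) (a : ℕ) : A.Cc fun i j z => l i j z ^ a where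
  hol i j := (hl.hol i j).pow a
  one i z h := by rw [hl.one i z h, one_pow]
  mul i j k z h h' := by rw [hl.mul i j k z h h', mul_pow]

end line

theorem Cc.det {n : Type} [Fintype n] [DecidableEq n] {g : Fin A.N → Fin A.N → ℂ → Mx n}
    (hg : A.Cc g) : A.Cc fun i j z => (g i j z).det where
  hol _ _ _ h := (an_det (hg.an h)).differentiableAt.differentiableWithinAt
  one i z h := by rw [hg.one i z h, det_one]
  mul i j k z h h' := by rw [hg.mul i j k z h h', det_mul]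

theorem Ct.at {F : Type} [TopologicalSpace F] {u : Fin A.N → ℂ → F} (hu : A.Ct u)
    (h : z ∈ ball (0 : ℂ) A.R) (i : Fin A.N) : ContinuousAt (u i) z :=
  (hu i).continuousAt (isOpen_ball.mem_nhds h)

theorem Sm.at {F : Type} [NormedAddCommGroup F] [NormedSpace ℝ F] {k : WithTop ℕ∞}
    {u : Fin A.N → ℂ → F} (hu : A.Sm k u) (h : z ∈ ball (0 : ℂ) A.R) (i : Fin A.N) :
    ContDiffAt ℝ k (u i) z := (hu i).contDiffAt (isOpen_ball.mem_nhds h)

theorem Sm.ct {F : Type} [NormedAddCommGroup F] [NormedSpace ℝ F] {k : WithTop ℕ∞}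
    {u : Fin A.N → ℂ → F} (hu : A.Sm k u) : A.Ct u := fun i => (hu i).continuousOn

theorem Sm.of_le {F : Type} [NormedAddCommGroup F] [NormedSpace ℝ F] {k k' : WithTop ℕ∞}
    {u : Fin A.N → ℂ → F} (hu : A.Sm k u) (h : k' ≤ k) : A.Sm k' u := fun i => (hu i).of_le h

theorem Hl.an {F : Type} [NormedAddCommGroup F] [NormedSpace ℂ F] [CompleteSpace F]
    {u : Fin A.N → ℂ → F} (hu : A.Hl u) (h : z ∈ ball (0 : ℂ) A.R) (i : Fin A.N) :
    AnalyticAt ℂ (u i) z := (hu i).analyticAt (isOpen_ball.mem_nhds h)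

section res
variable {r : ℝ} {h1 : 1 < r} {h2 : r ≤ A.R}

theorem res_tr : (A.res r h1 h2).tr = A.tr := rfl

theorem res_d : (A.res r h1 h2).d = A.d := rfl

theorem res_R : (A.res r h1 h2).R = r := rfl

theorem res_O : z ∈ (A.res r h1 h2).O i j ↔
    z ∈ A.O i j ∧ z ∈ ball (0 : ℂ) r ∧ A.tr i j z ∈ ball (0 : ℂ) r :=
  ⟨fun h => ⟨⟨ball_subset_ball h2 h.1, h.2.1⟩, h.1, h.2.2⟩, fun h => ⟨h.2.1, h.1.2, h.2.2⟩⟩

theorem res_ext {F : Type} [Zero F] {u : ℂ → F} (hu : ∀ z, r ≤ ‖z‖ → u z = 0) (i : Fin A.N) :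
    (A.res r h1 h2).ext i u = A.ext i u := by
  funext x
  by_cases h : x ∈ (A.e i).source
  · by_cases h' : A.e i x ∈ ball (0 : ℂ) r
    · exact (indicator_of_mem (s := ((A.res r h1 h2).e i).source) ⟨h, h'⟩ _).trans
        (indicator_of_mem h fun x => u (A.e i x)).symm
    · exact (indicator_of_notMem (s := ((A.res r h1 h2).e i).source) (fun a => h' a.2) _).trans
        ((indicator_of_mem h fun x => u (A.e i x)).trans
          (hu _ (not_lt.1 fun a => h' (mem_ball_zero_iff.2 a)))).symm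
  · exact (indicator_of_notMem (s := ((A.res r h1 h2).e i).source) (fun a => h a.1) _).trans
      (indicator_of_notMem h _).symm

theorem bp_zero (h : 1 ≤ ‖z‖) : bp z = 0 := bp.zero_of_le_dist (by simpa [bp] using h)

theorem res_S : (A.res r h1 h2).S = A.S := by
  funext x
  have h : ∀ j : Fin A.N, (A.res r h1 h2).ext j (fun z => bp z ^ 2) = A.ext j fun z => bp z ^ 2 :=
    res_ext fun z hz => by rw [bp_zero (h1.le.trans hz), sq, zero_mul]
  show ∑ j : Fin A.N, (A.res r h1 h2).ext j (fun z => bp z ^ 2) x = _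
  simp only [h, S]

theorem res_η : (A.res r h1 h2).η = A.η := by
  funext i z
  exact congrArg (fun S : C → ℝ => bp z / √(S ((A.e i).symm z))) res_S

theorem res_χ : (A.res r h1 h2).χ = A.χ := by
  funext i z
  exact congrArg (fun η : Fin A.N → ℂ → ℝ => η i z ^ 2) res_η

theorem η_zero (h : 1 ≤ ‖z‖) : A.η i z = 0 := by rw [η, bp_zero h, zero_div]

theorem χ_zero (h : 1 ≤ ‖z‖) : A.χ i z = 0 := by rw [χ, η_zero h, sq, zero_mul]

theorem res_ψ : (A.res r h1 h2).ψ = A.ψ := by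
  funext i
  have h : (A.res r h1 h2).ext i (A.χ i) = A.ext i (A.χ i) :=
    res_ext (A := A) (fun z hz => χ_zero (A := A) (i := i) (h1.le.trans hz)) i
  rw [ψ, res_χ]
  exact h

theorem res_φ : (A.res r h1 h2).φ = A.φ := by
  funext j i z
  exact congrArg (fun ψ : Fin A.N → C → ℝ => ψ j ((A.e i).symm z)) res_ψ

theorem res_int {F : Type} [NormedAddCommGroup F] [NormedSpace ℝ F] (u : Fin A.N → ℂ → F) :
    (A.res r h1 h2).int u = A.int u :=
  congrArg (fun χ : Fin A.N → ℂ → ℝ => ∑ i, ∫ z, χ i z • u i z) res_χ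

theorem res_mt (l : Fin A.N → Fin A.N → ℂ → ℂ) : (A.res r h1 h2).mt l = A.mt l := by
  funext i z
  exact congrArg (fun φ : Fin A.N → Fin A.N → ℂ → ℝ =>
    ∑ j, φ j i z * normSq (l j i (A.tr i j z))) res_φ

theorem res_mtM {n : Type} [Fintype n] (g : Fin A.N → Fin A.N → ℂ → Mx n) :
    (A.res r h1 h2).mtM g = A.mtM g := by
  funext i z
  exact congrArg (fun φ : Fin A.N → Fin A.N → ℂ → ℝ =>
    ∑ j, (φ j i z : ℂ) • ((g j i (A.tr i j z))ᴴ * g j i (A.tr i j z))) res_φ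

theorem res_ρ : (A.res r h1 h2).ρ = A.ρ := by
  funext i z
  exact congrArg (fun φ : Fin A.N → Fin A.N → ℂ → ℝ => ∑ j, φ j i z * normSq (A.d i j z)) res_φ

theorem res_cv : (A.res r h1 h2).cv = A.cv := rfl

theorem res_deg (l : Fin A.N → Fin A.N → ℂ → ℂ) : (A.res r h1 h2).deg l = A.deg l := by
  show Real.pi⁻¹ * (A.res r h1 h2).int (A.cv ((A.res r h1 h2).mt l)) = _
  rw [res_int, res_mt, deg]

theorem res_degM {n : Type} [Fintype n] [DecidableEq n] (g : Fin A.N → Fin A.N → ℂ → Mx n) :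
    (A.res r h1 h2).degM g = A.degM g := res_deg _

theorem Fn.res {F : Type} {u : Fin A.N → ℂ → F} (h : A.Fn u) : (A.res r h1 h2).Fn u :=
  fun i j z hz => h i j z (res_O.1 hz).1

theorem Sec.res {F : Type} [SMul ℂ F] {l : Fin A.N → Fin A.N → ℂ → ℂ} {u : Fin A.N → ℂ → F}
    (h : A.Sec l u) : (A.res r h1 h2).Sec l u := fun i j z hz => h i j z (res_O.1 hz).1

theorem Dn.res {F : Type} [SMul ℝ F] {u : Fin A.N → ℂ → F} (h : A.Dn u) :
    (A.res r h1 h2).Dn u := fun i j z hz => h i j z (res_O.1 hz).1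

theorem Ct.res {F : Type} [TopologicalSpace F] {u : Fin A.N → ℂ → F} (h : A.Ct u) :
    (A.res r h1 h2).Ct u := fun i => (h i).mono (ball_subset_ball h2)

theorem Sm.res {F : Type} [NormedAddCommGroup F] [NormedSpace ℝ F] {k : WithTop ℕ∞}
    {u : Fin A.N → ℂ → F} (h : A.Sm k u) : (A.res r h1 h2).Sm k u :=
  fun i => (h i).mono (ball_subset_ball h2)

theorem Hl.res {F : Type} [NormedAddCommGroup F] [NormedSpace ℂ F] {u : Fin A.N → ℂ → F}
    (h : A.Hl u) : (A.res r h1 h2).Hl u := fun i => (h i).mono (ball_subset_ball h2)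

theorem Cc.res {R : Type} [NormedAddCommGroup R] [NormedSpace ℂ R] [Monoid R]
    {g : Fin A.N → Fin A.N → ℂ → R} (h : A.Cc g) : (A.res r h1 h2).Cc g where
  hol i j := (h.hol i j).mono fun _ hz => (res_O.1 hz).1
  one i z hz := h.one i z (ball_subset_ball h2 hz)
  mul i j k z a b := h.mul i j k z (res_O.1 a).1 (res_O.1 b).1

theorem Mt.res {k : WithTop ℕ∞} {l : Fin A.N → Fin A.N → ℂ → ℂ} {h : Fin A.N → ℂ → ℝ}
    (H : A.Mt k l h) : (A.res r h1 h2).Mt k l h :=
  ⟨H.sm.res, fun i z hz => H.pos i z (ball_subset_ball h2 hz),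
    fun i j z hz => H.tr i j z (res_O.1 hz).1⟩

theorem MtM.res {n : Type} [Fintype n] [DecidableEq n] {k : WithTop ℕ∞}
    {g : Fin A.N → Fin A.N → ℂ → Mx n} {h : Fin A.N → ℂ → Mx n} (H : A.MtM k g h) :
    (A.res r h1 h2).MtM k g h :=
  ⟨H.sm.res, fun i z hz => H.pos i z (ball_subset_ball h2 hz),
    fun i j z hz => H.tr i j z (res_O.1 hz).1⟩

variable {F : Type} {T : Fin A.N → Fin A.N → ℂ → F → F} {u : Fin A.N → ℂ → F}

/-- the extension in terms of any chart of the smaller atlas -/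
theorem xt_eq (hT : ∀ i j k, ∀ z ∈ A.O i j, z ∈ A.O i k → ∀ y,
      T i k z y = T i j z (T j k (A.tr i j z) y))
    (hu : ∀ i j, ∀ z ∈ (A.res r h1 h2).O i j, u i z = T i j z (u j (A.tr i j z)))
    (h : z ∈ A.O i j) (hr : A.tr i j z ∈ ball (0 : ℂ) r) :
    A.xt T u i z = T i j z (u j (A.tr i j z)) := by
  obtain ⟨a, b⟩ := pick_spec h.1 i
  rw [xt, hT i j _ z h a, hu j (A.pick i z) _ (res_O.2 ⟨tr_O h a, hr, by
    rw [tr_tr h]; exact mem_ball_zero_iff.2 (b.trans h1)⟩), tr_tr h]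

theorem xt_ev (hT : ∀ i j k, ∀ z ∈ A.O i j, z ∈ A.O i k → ∀ y,
      T i k z y = T i j z (T j k (A.tr i j z) y))
    (hu : ∀ i j, ∀ z ∈ (A.res r h1 h2).O i j, u i z = T i j z (u j (A.tr i j z)))
    (h : z ∈ A.O i j) (hr : A.tr i j z ∈ ball (0 : ℂ) r) :
    A.xt T u i =ᶠ[𝓝 z] fun w => T i j w (u j (A.tr i j w)) := by
  filter_upwards [O_nhds h, (an_tr h).continuousAt.eventually (isOpen_ball.mem_nhds hr)] with w a b
  exact xt_eq hT hu a b

/-- the extension agrees with the family on the smaller discs -/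
theorem xt_self (hu : ∀ i j, ∀ z ∈ (A.res r h1 h2).O i j, u i z = T i j z (u j (A.tr i j z)))
    (h : z ∈ ball (0 : ℂ) r) : A.xt T u i z = u i z := by
  obtain ⟨a, b⟩ := pick_spec (ball_subset_ball h2 h) i
  exact (hu i _ z (res_O.2 ⟨a, h, mem_ball_zero_iff.2 (b.trans h1)⟩)).symm

/-- the extension is a compatible family -/
theorem xt_tr (hT : ∀ i j k, ∀ z ∈ A.O i j, z ∈ A.O i k → ∀ y,
      T i k z y = T i j z (T j k (A.tr i j z) y))
    (hu : ∀ i j, ∀ z ∈ (A.res r h1 h2).O i j, u i z = T i j z (u j (A.tr i j z)))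
    (h : z ∈ A.O i j) : A.xt T u i z = T i j z (A.xt T u j (A.tr i j z)) := by
  obtain ⟨a, b⟩ := pick_spec h.1 i
  have c : A.tr j (A.pick i z) (A.tr i j z) ∈ ball (0 : ℂ) r := by
    rw [tr_tr h]; exact mem_ball_zero_iff.2 (b.trans h1)
  rw [xt_eq hT hu (tr_O h a) c, ← hT i j _ z h a, tr_tr h, xt]

/-- compatible families are determined by their values on the unit discs -/
theorem ext_unit {v : Fin A.N → ℂ → F}
    (hu : ∀ i j, ∀ z ∈ A.O i j, u i z = T i j z (u j (A.tr i j z)))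
    (hv : ∀ i j, ∀ z ∈ A.O i j, v i z = T i j z (v j (A.tr i j z)))
    (e : ∀ i z, ‖z‖ < 1 → u i z = v i z) (h : z ∈ ball (0 : ℂ) A.R) : u i z = v i z := by
  obtain ⟨j, a, b⟩ := ex_unit h i
  rw [hu i j z a, hv i j z a, e j _ b]

end res

end At

end Vale.Agent.P275GC
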