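import Vale.Agent.P275GC.Defs
import Mathlib.Geometry.Manifold.SmoothApprox

/-!
# P275, block GC: partitions of unity, canonical metrics, gluing
-/

set_option linter.unusedSectionVars false

open scoped Topology ComplexConjugate ContDiff Matrix.Norms.Operator ComplexOrder
open Set Filter Metric MeasureTheory Complex Matrix

noncomputable section

namespace Vale.Agent.P275GC

open Vale.Agent.P281Z.Hm

theorem bp_pos {z : ℂ} (h : ‖z‖ < 1) : 0 < bp z := bp.pos_of_mem_ball (by simpa [bp] using h)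

theorem cd_an {F : Type} [NormedAddCommGroup F] [NormedSpace ℝ F] [NormedSpace ℂ F]
    [IsScalarTower ℝ ℂ F] [CompleteSpace F] {f : ℂ → F} {z : ℂ} {k : WithTop ℕ∞}
    (h : AnalyticAt ℂ f z) : ContDiffAt ℝ k f z := h.contDiffAt.restrict_scalars ℝ

theorem cd_nsq {f : ℂ → ℂ} {z : ℂ} {k : WithTop ℕ∞} (h : ContDiffAt ℝ k f z) :
    ContDiffAt ℝ k (fun w => normSq (f w)) z := by
  simp only [normSq_eq_norm_sq]
  exact h.norm_sq ℝ

theorem cd_ofReal {f : ℂ → ℝ} {z : ℂ} {k : WithTop ℕ∞} (h : ContDiffAt ℝ k f z) :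
    ContDiffAt ℝ k (fun w => (f w : ℂ)) z := ofRealCLM.contDiff.contDiffAt.comp z h

theorem cd_conj {f : ℂ → ℂ} {z : ℂ} {k : WithTop ℕ∞} (h : ContDiffAt ℝ k f z) :
    ContDiffAt ℝ k (fun w => conj (f w)) z := conjCLE.contDiff.contDiffAt.comp z h

namespace At

variable {C : Type} [TopologicalSpace C] {A : At C} {i j k : Fin A.N} {z : ℂ} {x : C}

section ext
variable {F : Type} [Zero F] {u : ℂ → F}

theorem ext_src (h : x ∈ (A.e i).source) : A.ext i u x = u (A.e i x) := indicator_of_mem h _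

theorem ext_not (h : x ∉ (A.e i).source) : A.ext i u x = 0 := indicator_of_notMem h _

theorem ext_tr (h : z ∈ A.O i j) : A.ext j u ((A.e i).symm z) = u (A.tr i j z) := ext_src h.2

theorem ext_symm (h : z ∈ ball (0 : ℂ) A.R) : A.ext i u ((A.e i).symm z) = u z := by
  rw [ext_src (map_tgt h), rinv h]

theorem ext_off {K : Set ℂ} (h0 : ∀ z ∈ ball (0 : ℂ) A.R, z ∉ K → u z = 0)
    (h : x ∉ (A.e i).symm '' K) : A.ext i u x = 0 := by
  by_cases hx : x ∈ (A.e i).source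
  · rw [ext_src hx]
    exact h0 _ (map_src hx) fun a => h ⟨_, a, (A.e i).left_inv hx⟩
  · exact ext_not hx

end ext

theorem cpt_img {K : Set ℂ} (hK : IsCompact K) (hR : K ⊆ ball 0 A.R) (i : Fin A.N) :
    IsCompact ((A.e i).symm '' K) := hK.image_of_continuousOn ((cont_symm i).mono hR)

/-- a space with such an atlas is compact -/
theorem compactSpace (A : At C) : CompactSpace C := by
  refine ⟨(isCompact_iUnion fun i => cpt_img (isCompact_closedBall 0 1) A.unit_sub i).of_isClosed_subset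
    isClosed_univ fun x _ => ?_⟩
  obtain ⟨i, a, b⟩ := A.cov x
  exact mem_iUnion.2 ⟨i, _, mem_closedBall_zero_iff.2 b.le, (A.e i).left_inv a⟩

theorem S_pos (x : C) : 0 < A.S x := by
  obtain ⟨i, a, b⟩ := A.cov x
  refine Finset.sum_pos' (fun j _ => indicator_nonneg (fun _ _ => sq_nonneg _) x)
    ⟨i, Finset.mem_univ i, ?_⟩
  rw [ext_src a]
  exact pow_pos (bp_pos b) 2

theorem η_nonneg : 0 ≤ A.η i z := div_nonneg bp.nonneg (Real.sqrt_nonneg _)

theorem η_pos (h : ‖z‖ < 1) : 0 < A.η i z := div_pos (bp_pos h) (Real.sqrt_pos.2 (S_pos _))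

theorem χ_nonneg : 0 ≤ A.χ i z := sq_nonneg _

theorem χ_pos (h : ‖z‖ < 1) : 0 < A.χ i z := pow_pos (η_pos h) 2

theorem χ_eq : A.χ i z = bp z ^ 2 / A.S ((A.e i).symm z) := by
  rw [χ, η, div_pow, Real.sq_sqrt (S_pos _).le]

theorem ψ_eq : A.ψ i x = A.ext i (fun z => bp z ^ 2) x / A.S x := by
  by_cases h : x ∈ (A.e i).source
  · rw [ψ, ext_src h, ext_src h, χ_eq, (A.e i).left_inv h]
  · rw [ψ, ext_not h, ext_not h, zero_div]

theorem sum_ψ (x : C) : ∑ i, A.ψ i x = 1 := by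
  simp only [ψ_eq]
  rw [← Finset.sum_div]
  exact div_self (S_pos x).ne'

theorem ψ_nonneg : 0 ≤ A.ψ i x := indicator_nonneg (fun _ _ => χ_nonneg) x

theorem ψ_le_one : A.ψ i x ≤ 1 :=
  (Finset.single_le_sum (f := fun i => A.ψ i x) (fun _ _ => ψ_nonneg) (Finset.mem_univ i)).trans
    (sum_ψ x).le

theorem sum_φ (i : Fin A.N) (z : ℂ) : ∑ j, A.φ j i z = 1 := sum_ψ _

theorem φ_nonneg : 0 ≤ A.φ j i z := ψ_nonneg

theorem φ_le_one : A.φ j i z ≤ 1 := ψ_le_one

theorem φ_tr (h : z ∈ A.O i j) : A.φ j i z = A.χ j (A.tr i j z) := ext_tr h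

theorem φ_self (h : z ∈ ball (0 : ℂ) A.R) : A.φ i i z = A.χ i z := ext_symm h

theorem φ_not (h : z ∈ ball (0 : ℂ) A.R) (h' : z ∉ A.O i j) : A.φ j i z = 0 :=
  ext_not fun a => h' ⟨h, a⟩

theorem O_of_φ (h : z ∈ ball (0 : ℂ) A.R) (h' : A.φ j i z ≠ 0) :
    z ∈ A.O i j ∧ ‖A.tr i j z‖ < 1 := by
  have a : z ∈ A.O i j := by_contra fun a => h' (φ_not h a)
  exact ⟨a, not_le.1 fun b => h' (by rw [φ_tr a, χ_zero b])⟩

theorem φ_pos (h : z ∈ A.O i j) (h' : ‖A.tr i j z‖ < 1) : 0 < A.φ j i z := by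
  rw [φ_tr h]; exact χ_pos h'

theorem fn_φ (j : Fin A.N) : A.Fn (A.φ j) := fun _ _ _ h => by rw [φ, φ, symm_tr h]

theorem χ_le_one : A.χ i z ≤ 1 := by
  by_cases h : 1 ≤ ‖z‖
  · rw [χ_zero h]; exact zero_le_one
  · rw [← φ_self (mem_of_le (not_le.1 h).le)]; exact φ_le_one

theorem cs_η (i : Fin A.N) : HasCompactSupport (A.η i) :=
  HasCompactSupport.intro (isCompact_closedBall 0 1) fun _ h =>
    η_zero (not_le.1 fun a => h (mem_closedBall_zero_iff.2 a)).le

theorem cs_χ (i : Fin A.N) : HasCompactSupport (A.χ i) :=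
  HasCompactSupport.intro (isCompact_closedBall 0 1) fun _ h =>
    χ_zero (not_le.1 fun a => h (mem_closedBall_zero_iff.2 a)).le

/-- pull back of a function on `C` to the charts -/
def pl (A : At C) {F : Type} (f : C → F) (i : Fin A.N) (z : ℂ) : F := f ((A.e i).symm z)

/-- the function on `C` defined by a family -/
def gl (A : At C) {F : Type} (u : Fin A.N → ℂ → F) (x : C) : F :=
  u (A.cov x).choose (A.e (A.cov x).choose x)

theorem fn_pl {F : Type} (f : C → F) : A.Fn (A.pl f) := fun _ _ _ h => by rw [pl, pl, symm_tr h]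

theorem pl_e {F : Type} (f : C → F) (h : x ∈ (A.e i).source) : A.pl f i (A.e i x) = f x := by
  rw [pl, (A.e i).left_inv h]

theorem ct_pl {F : Type} [TopologicalSpace F] {f : C → F} (hf : Continuous f) : A.Ct (A.pl f) :=
  fun i => hf.comp_continuousOn (cont_symm i)

theorem cont_of_pl {F : Type} [TopologicalSpace F] {f : C → F} (hf : A.Ct (A.pl f)) :
    Continuous f := continuous_iff_continuousAt.2 fun x => by
  obtain ⟨i, a, -⟩ := A.cov x
  refine ((hf.at (map_src a) i).comp ((A.e i).continuousAt a)).congr ?_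
  filter_upwards [(A.e i).open_source.mem_nhds a] with y hy using pl_e f hy

theorem Fn.gl_src {F : Type} {u : Fin A.N → ℂ → F} (hu : A.Fn u) (h : x ∈ (A.e i).source) :
    A.gl u x = u i (A.e i x) := by
  rw [hu i _ _ (mem_O h (A.cov x).choose_spec.1), tr_e h, gl]

theorem Fn.pl_gl {F : Type} {u : Fin A.N → ℂ → F} (hu : A.Fn u) (h : z ∈ ball (0 : ℂ) A.R) :
    A.pl (A.gl u) i z = u i z := by rw [pl, hu.gl_src (map_tgt h), rinv h]

theorem gl_pl {F : Type} (f : C → F) : A.gl (A.pl f) = f :=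
  funext fun x => pl_e f (A.cov x).choose_spec.1

theorem Fn.cont_gl {F : Type} [TopologicalSpace F] {u : Fin A.N → ℂ → F} (hu : A.Fn u)
    (hc : A.Ct u) : Continuous (A.gl u) :=
  cont_of_pl fun i => (hc i).congr fun _ h => hu.pl_gl h

/-- the maximum of a continuous function -/
theorem Fn.exists_max [Nonempty C] {u : Fin A.N → ℂ → ℝ} (hu : A.Fn u) (hc : A.Ct u) :
    ∃ i z, ‖z‖ < 1 ∧ IsLocalMax (u i) z ∧ ∀ j, ∀ w ∈ ball (0 : ℂ) A.R, u j w ≤ u i z := by
  have := A.compactSpace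
  obtain ⟨x, -, hx⟩ := isCompact_univ.exists_isMaxOn univ_nonempty (hu.cont_gl hc).continuousOn
  obtain ⟨i, a, b⟩ := A.cov x
  have h : ∀ j, ∀ w ∈ ball (0 : ℂ) A.R, u j w ≤ u i (A.e i x) := fun j w hw => by
    rw [← hu.pl_gl hw, ← hu.gl_src a]
    exact hx (mem_univ _)
  exact ⟨i, _, b, eventually_of_mem (isOpen_ball.mem_nhds (map_src a)) (h i), h⟩

/-- continuous families are bounded on smaller discs -/
theorem Ct.bdd {F : Type} [SeminormedAddCommGroup F] {u : Fin A.N → ℂ → F} (hc : A.Ct u) {r : ℝ}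
    (hr : r < A.R) : ∃ M, 0 ≤ M ∧ ∀ i z, ‖z‖ ≤ r → ‖u i z‖ ≤ M := by
  have h := fun i => (isCompact_closedBall (0 : ℂ) r).exists_bound_of_continuousOn
    ((hc i).mono (closedBall_subset_ball hr))
  choose M hM using h
  refine ⟨∑ i, |M i|, Finset.sum_nonneg fun _ _ => abs_nonneg _, fun i z hz => ?_⟩
  exact ((hM i z (mem_closedBall_zero_iff.2 hz)).trans (le_abs_self _)).trans
    (Finset.single_le_sum (f := fun i => |M i|) (fun _ _ => abs_nonneg _) (Finset.mem_univ i))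

/-- positive continuous families are bounded below on smaller discs -/
theorem Ct.low {u : Fin A.N → ℂ → ℝ} (hc : A.Ct u) (hp : ∀ i, ∀ z ∈ ball (0 : ℂ) A.R, 0 < u i z)
    {r : ℝ} (hr : r < A.R) : ∃ c, 0 < c ∧ ∀ i z, ‖z‖ ≤ r → c ≤ u i z := by
  obtain ⟨M, h0, hM⟩ := Ct.bdd (A := A) (u := fun i z => (u i z)⁻¹)
    (fun i => (hc i).inv₀ fun z hz => (hp i z hz).ne') hr
  refine ⟨(M + 1)⁻¹, by positivity, fun i z hz => ?_⟩
  have a := hp i z (mem_ball_zero_iff.2 (hz.trans_lt hr))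
  exact inv_le_of_inv_le₀ a (((le_abs_self _).trans (hM i z hz)).trans (le_add_of_nonneg_right
    zero_le_one))

/-- a compatible property which is locally constant and holds somewhere holds everywhere -/
theorem Fn.conn [PreconnectedSpace C] {P : Fin A.N → ℂ → Prop} (hP : A.Fn P)
    (h1 : ∀ i, ∀ z ∈ ball (0 : ℂ) A.R, P i z → ∀ᶠ w in 𝓝 z, P i w)
    (h2 : ∀ i, ∀ z ∈ ball (0 : ℂ) A.R, (∃ᶠ w in 𝓝 z, P i w) → P i z)
    (hz : z ∈ ball (0 : ℂ) A.R) (h : P i z) (j : Fin A.N) {w : ℂ} (hw : w ∈ ball (0 : ℂ) A.R) :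
    P j w := by
  have key : ∀ (Q : Prop → Prop), (∀ i, ∀ z ∈ ball (0 : ℂ) A.R, Q (P i z) → ∀ᶠ w in 𝓝 z, Q (P i w)) →
      IsOpen {x | Q (A.gl P x)} := fun Q hQ => isOpen_iff_mem_nhds.2 fun x hx => by
    obtain ⟨i, a, -⟩ := A.cov x
    have b := ((A.e i).continuousAt a).eventually (hQ i _ (map_src a) (hP.gl_src a ▸ hx))
    filter_upwards [b, (A.e i).open_source.mem_nhds a] with y c d
    rwa [hP.gl_src d]
  have hc : IsClopen {x | A.gl P x} := ⟨⟨key Not fun i z hz a =>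
    not_frequently.1 fun b => a (h2 i z hz b)⟩, key id h1⟩
  have e := hc.eq_univ ⟨(A.e i).symm z, (hP.pl_gl hz).mpr h⟩
  rw [← hP.pl_gl hw]
  exact (e.symm ▸ mem_univ ((A.e j).symm w) : (A.e j).symm w ∈ {x | A.gl P x})

variable [T2Space C]

theorem ev_off {K : Set ℂ} (hK : IsCompact K) (hR : K ⊆ ball 0 A.R) (h : z ∈ ball (0 : ℂ) A.R)
    (h' : (A.e i).symm z ∉ (A.e j).symm '' K) :
    ∀ᶠ w in 𝓝 z, (A.e i).symm w ∉ (A.e j).symm '' K :=
  (contAt_symm h).eventually ((cpt_img hK hR j).isClosed.isOpen_compl.mem_nhds h')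

theorem off_of_not {K : Set ℂ} (hR : K ⊆ ball 0 A.R) (h : z ∈ ball (0 : ℂ) A.R)
    (h' : z ∉ A.O i j) : (A.e i).symm z ∉ (A.e j).symm '' K := by
  rintro ⟨w, a, b⟩
  exact h' ⟨h, by rw [mem_preimage, ← b]; exact map_tgt (hR a)⟩

theorem ev_ext {F : Type} [Zero F] {u : ℂ → F} {K : Set ℂ} (hK : IsCompact K)
    (hR : K ⊆ ball 0 A.R) (h0 : ∀ z ∈ ball (0 : ℂ) A.R, z ∉ K → u z = 0)
    (h : z ∈ ball (0 : ℂ) A.R) (h' : z ∉ A.O i j) :
    ∀ᶠ w in 𝓝 z, A.ext j u ((A.e i).symm w) = 0 :=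
  (ev_off hK hR h (off_of_not hR h h')).mono fun _ a => ext_off h0 a

theorem ev_φ (h : z ∈ ball (0 : ℂ) A.R) (h' : z ∉ A.O i j) : ∀ᶠ w in 𝓝 z, A.φ j i w = 0 :=
  ev_ext (isCompact_closedBall 0 1) A.unit_sub (fun _ _ a =>
    χ_zero (not_le.1 fun b => a (mem_closedBall_zero_iff.2 b)).le) h h'

section sm
variable {F : Type} [NormedAddCommGroup F] [NormedSpace ℝ F] {m : WithTop ℕ∞} {u : ℂ → F}
  {K : Set ℂ}

theorem ct_ext {F : Type} [TopologicalSpace F] [Zero F] {u : ℂ → F} (hK : IsCompact K)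
    (hR : K ⊆ ball 0 A.R) (hu : ContinuousOn u (ball 0 A.R))
    (h0 : ∀ z ∈ ball (0 : ℂ) A.R, z ∉ K → u z = 0) (j : Fin A.N) : Continuous (A.ext j u) := by
  refine cont_of_pl (A := A) fun i z h => ContinuousAt.continuousWithinAt ?_
  by_cases h' : z ∈ A.O i j
  · refine ((hu.continuousAt (isOpen_ball.mem_nhds (tr_ball h'))).comp
      (an_tr h').continuousAt).congr ?_
    filter_upwards [O_nhds h'] with w a using (ext_tr a).symm
  · exact continuousAt_const.congr ((ev_ext hK hR h0 h h').mono fun _ a => a.symm)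

theorem sm_ext (hK : IsCompact K) (hR : K ⊆ ball 0 A.R) (hu : ContDiffOn ℝ m u (ball 0 A.R))
    (h0 : ∀ z ∈ ball (0 : ℂ) A.R, z ∉ K → u z = 0) (j : Fin A.N) : A.Sm m (A.pl (A.ext j u)) := by
  refine fun i z h => ContDiffAt.contDiffWithinAt ?_
  by_cases h' : z ∈ A.O i j
  · refine ((hu.contDiffAt (isOpen_ball.mem_nhds (tr_ball h'))).comp z
      (cd_an (an_tr h'))).congr_of_eventuallyEq ?_
    filter_upwards [O_nhds h'] with w a using ext_tr a
  · exact contDiffAt_const.congr_of_eventuallyEq (ev_ext hK hR h0 h h')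

theorem sm_S : A.Sm ∞ (A.pl A.S) := fun i =>
  show ContDiffOn ℝ ∞ (fun z => ∑ j, A.pl (A.ext j fun z => bp z ^ 2) i z) _ from
  ContDiffOn.sum fun j _ => sm_ext (isCompact_closedBall 0 1) A.unit_sub
    (bp.contDiff.pow 2).contDiffOn (fun _ _ a => by
      rw [bp_zero (not_le.1 fun b => a (mem_closedBall_zero_iff.2 b)).le, sq, zero_mul]) j i

theorem cd_of_ball (hK : IsCompact K) (hR : K ⊆ ball 0 A.R) (hu : ContDiffOn ℝ m u (ball 0 A.R))
    (h0 : ∀ z, z ∉ K → u z = 0) : ContDiff ℝ m u := contDiff_iff_contDiffAt.2 fun z => by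
  by_cases h : z ∈ ball (0 : ℂ) A.R
  · exact hu.contDiffAt (isOpen_ball.mem_nhds h)
  · exact contDiffAt_const.congr_of_eventuallyEq (eventually_of_mem
      (hK.isClosed.isOpen_compl.mem_nhds fun a => h (hR a)) h0)

theorem cd_η (i : Fin A.N) : ContDiff ℝ ∞ (A.η i) :=
  cd_of_ball (isCompact_closedBall 0 1) A.unit_sub (bp.contDiff.contDiffOn.div
    ((sm_S i).sqrt fun _ _ => (S_pos _).ne') fun _ _ => (Real.sqrt_pos.2 (S_pos _)).ne')
    fun _ a => η_zero (not_le.1 fun b => a (mem_closedBall_zero_iff.2 b)).le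

theorem cd_χ (i : Fin A.N) : ContDiff ℝ ∞ (A.χ i) := (cd_η i).pow 2

theorem sm_φ (j : Fin A.N) : A.Sm ∞ (A.φ j) :=
  sm_ext (isCompact_closedBall 0 1) A.unit_sub (cd_χ j).contDiffOn (fun _ _ a =>
    χ_zero (not_le.1 fun b => a (mem_closedBall_zero_iff.2 b)).le) j

theorem cont_ψ (j : Fin A.N) : Continuous (A.ψ j) := cont_of_pl (sm_φ j).ct

/-- cutting off a function which is regular on an overlap -/
theorem cd_φ_smul {m : ℕ∞} (hu : ∀ z ∈ A.O i j, ContDiffAt ℝ m u z) :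
    ContDiffOn ℝ m (fun w => A.φ j i w • u w) (ball 0 A.R) := by
  refine fun z h => ContDiffAt.contDiffWithinAt ?_
  by_cases h' : z ∈ A.O i j
  · exact (((sm_φ j).at h i).of_le (mod_cast le_top)).smul (hu z h')
  · exact contDiffAt_const.congr_of_eventuallyEq ((ev_φ h h').mono fun w a =>
      (congrArg (· • u w) a).trans (zero_smul ℝ _))

theorem ct_φ_smul (hu : ∀ z ∈ A.O i j, ContinuousAt u z) :
    ContinuousOn (fun w => A.φ j i w • u w) (ball 0 A.R) :=
  (cd_φ_smul (m := 0) fun _ h => contDiffAt_zero.2 ⟨_, O_nhds h, fun w a =>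
    (hu w a).continuousWithinAt⟩).continuousOn

end sm

/-- the canonical metric of a line bundle is a smooth metric -/
theorem Cc.mt {l : Fin A.N → Fin A.N → ℂ → ℂ} (hl : A.Cc l) : A.Mt ∞ l (A.mt l) where
  sm i := ContDiffOn.sum fun j _ => cd_φ_smul (m := ⊤) fun z h =>
    cd_nsq (cd_an ((hl.an (tr_mem h)).comp (an_tr h)))
  pos i z h := by
    obtain ⟨j, a, b⟩ := ex_unit h i
    exact Finset.sum_pos' (fun _ _ => mul_nonneg φ_nonneg (normSq_nonneg _))
      ⟨j, Finset.mem_univ j, mul_pos (φ_pos a b) (normSq_pos.2 (hl.ne (tr_mem a)))⟩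
  tr i j z h := by
    rw [At.mt, At.mt, Finset.mul_sum]
    refine Finset.sum_congr rfl fun k _ => ?_
    rw [← fn_φ k i j z h]
    by_cases h' : z ∈ A.O i k
    · rw [tr_tr h, hl.mul k i j _ (tr_mem h') (tr_O h' h), tr_inv h', map_mul]; ring
    · rw [φ_not h.1 h', zero_mul, zero_mul, mul_zero]

theorem Cc.det_ne {n : Type} [Fintype n] [DecidableEq n] {g : Fin A.N → Fin A.N → ℂ → Mx n}
    (hg : A.Cc g) (h : z ∈ A.O i j) : (g i j z).det ≠ 0 := hg.det.ne h

/-- the canonical metric of a vector bundle is a smooth metric -/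
theorem Cc.mtM {n : Type} [Fintype n] [DecidableEq n] {g : Fin A.N → Fin A.N → ℂ → Mx n}
    (hg : A.Cc g) : A.MtM ∞ g (A.mtM g) where
  sm i := ContDiffOn.sum fun j _ => by
    have := cd_φ_smul (A := A) (i := i) (j := j) (m := ⊤)
      (u := fun z => (g j i (A.tr i j z))ᴴ * g j i (A.tr i j z)) fun z h => by
        have a : AnalyticAt ℝ (fun z => g j i (A.tr i j z)) z :=
          ((hg.an (tr_mem h)).comp (an_tr h)).restrictScalars
        exact (an_mul (an_ct a) a).contDiffAt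
    exact this.congr fun z _ => (rsmul _ _).symm
  pos i z h := by
    obtain ⟨j, a, b⟩ := ex_unit h i
    rw [At.mtM, ← Finset.add_sum_erase _ _ (Finset.mem_univ j)]
    refine PosDef.add_posSemidef (PosDef.smul (PosDef.conjTranspose_mul_self _
      (mulVec_injective_iff_isUnit.2 ((isUnit_iff_isUnit_det _).2 (hg.det_ne (tr_mem a)).isUnit)))
      (zero_lt_real.2 (φ_pos a b))) (posSemidef_sum _ fun k _ =>
        (posSemidef_conjTranspose_mul_self _).smul (zero_le_real.2 φ_nonneg))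
  tr i j z h := by
    rw [At.mtM, At.mtM, Finset.mul_sum, Finset.sum_mul]
    refine Finset.sum_congr rfl fun k _ => ?_
    rw [← fn_φ k i j z h]
    by_cases h' : z ∈ A.O i k
    · rw [tr_tr h, hg.mul k i j _ (tr_mem h') (tr_O h' h), tr_inv h', conjTranspose_mul]
      simp only [Matrix.mul_smul, Matrix.smul_mul, Matrix.mul_assoc]
    · rw [φ_not h.1 h', ofReal_zero, zero_smul, zero_smul, Matrix.mul_zero, Matrix.zero_mul]

theorem sm_ρ : A.Sm ∞ A.ρ := fun _ => ContDiffOn.sum fun _ _ => cd_φ_smul (m := ⊤) fun _ h =>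
  cd_nsq (cd_an (an_d h))

theorem ρ_pos (h : z ∈ ball (0 : ℂ) A.R) : 0 < A.ρ i z := by
  obtain ⟨j, a, b⟩ := ex_unit h i
  exact Finset.sum_pos' (fun _ _ => mul_nonneg φ_nonneg (normSq_nonneg _))
    ⟨j, Finset.mem_univ j, mul_pos (φ_pos a b) (normSq_pos.2 (d_ne a))⟩

theorem dn_ρ : A.Dn A.ρ := fun i j z h => by
  rw [ρ, ρ, smul_eq_mul, Finset.mul_sum]
  refine Finset.sum_congr rfl fun k _ => ?_
  rw [← fn_φ k i j z h]
  by_cases h' : z ∈ A.O i k
  · rw [A.cc_d.mul i j k z h h', map_mul]; ring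
  · rw [φ_not h.1 h', zero_mul, zero_mul, mul_zero]

/-- a smooth function on the plane which is `1` on the disc of radius `r` and has compact support
in the disc of radius `R` -/
theorem exists_cut {r R : ℝ} (h0 : 0 < r) (h : r < R) : ∃ (β : ℂ → ℝ) (r' : ℝ), r < r' ∧ r' < R ∧
    ContDiff ℝ ∞ β ∧ (∀ z, 0 ≤ β z ∧ β z ≤ 1) ∧ (∀ z, ‖z‖ ≤ r → β z = 1) ∧
    ∀ z, r' ≤ ‖z‖ → β z = 0 := by
  let b : ContDiffBump (0 : ℂ) := ⟨r, (r + R) / 2, h0, by linarith⟩
  exact ⟨b, (r + R) / 2, by linarith, by linarith, b.contDiff, fun _ => ⟨b.nonneg, b.le_one⟩,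
    fun z hz => b.one_of_mem_closedBall (mem_closedBall_zero_iff.2 hz),
    fun z hz => b.zero_of_le_dist (by simpa using hz)⟩

/-- smooth functions are dense -/
theorem exists_smooth_near {F : Type} [NormedAddCommGroup F] [NormedSpace ℝ F] {f : C → F}
    (hf : Continuous f) {ε : ℝ} (hε : 0 < ε) :
    ∃ g : C → F, A.Sm ∞ (A.pl g) ∧ ∀ x, ‖g x - f x‖ ≤ ε := by
  obtain ⟨β, r, r1, r2, b1, -, b2, b3⟩ := exists_cut one_pos A.hR
  have hc : ∀ j, Continuous fun z => β z • A.pl f j z := fun j =>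
    (cd_of_ball (A := A) (m := 0) (isCompact_closedBall 0 r) (closedBall_subset_ball r2)
      (contDiffOn_zero.2 (b1.continuous.continuousOn.smul (ct_pl hf j))) fun z a => by
        rw [Pi.smul_apply', b3 z (not_le.1 fun b => a (mem_closedBall_zero_iff.2 b)).le, zero_smul]).continuous
  choose G hG hG' _ using fun j => (hc j).exists_contDiff_approx ⊤ (ε := fun _ => ε)
    continuous_const fun _ => hε
  refine ⟨fun x => ∑ j, A.ext j (fun z => A.χ j z • G j z) x, fun i => ContDiffOn.sum fun j _ =>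
    sm_ext (isCompact_closedBall 0 1) A.unit_sub ((cd_χ j).smul (hG j)).contDiffOn (fun _ _ a => by
      rw [Pi.smul_apply', χ_zero (not_le.1 fun b => a (mem_closedBall_zero_iff.2 b)).le,
        zero_smul]) j i,
    fun x => ?_⟩
  have e : f x = ∑ j, A.ψ j x • f x := by rw [← Finset.sum_smul, sum_ψ, one_smul]
  rw [e, ← Finset.sum_sub_distrib, ← one_mul ε, ← sum_ψ (A := A) x, Finset.sum_mul]
  refine norm_sum_le_of_le _ fun j _ => ?_
  by_cases h : x ∈ (A.e j).source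
  · rw [ψ, ext_src h, ext_src h, ← smul_sub, norm_smul, Real.norm_of_nonneg χ_nonneg]
    by_cases h' : 1 ≤ ‖A.e j x‖
    · rw [χ_zero h', zero_mul, zero_mul]
    · refine mul_le_mul_of_nonneg_left ?_ χ_nonneg
      have := (hG' j (A.e j x)).le
      rwa [b2 _ (not_le.1 h').le, one_smul, pl_e f h, dist_eq_norm] at this
  · rw [ψ, ext_not h, ext_not h, zero_smul, sub_zero, norm_zero, zero_mul]

end At

end Vale.Agent.P275GC
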