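import Vale.Agent.P275GC.Pu
import Mathlib.Geometry.Manifold.IsManifold.Basic
import Mathlib.Geometry.Manifold.ContMDiff.Atlas

/-!
# P275, block GC: existence of finite atlases of discs on compact Riemann surfaces
-/

set_option linter.unusedSectionVars false

open scoped Topology ContDiff Manifold
open Set Filter Metric

noncomputable section

namespace Vale.Agent.P275GC

variable {C : Type} [TopologicalSpace C] [ChartedSpace ℂ C]

/-- the map `z ↦ (4 / r) (z - c)` -/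
def aff (c : ℂ) {r : ℝ} (hr : 0 < r) : ℂ ≃ₜ ℂ := (Homeomorph.subRight c).trans
  (Homeomorph.mulLeft₀ ((4 / r : ℝ) : ℂ) (by exact_mod_cast (div_pos four_pos hr).ne'))

theorem aff_apply (c : ℂ) {r : ℝ} (hr : 0 < r) (z : ℂ) :
    aff c hr z = ((4 / r : ℝ) : ℂ) * (z - c) := rfl

theorem aff_symm (c : ℂ) {r : ℝ} (hr : 0 < r) (z : ℂ) :
    (aff c hr).symm z = ((r / 4 : ℝ) : ℂ) * z + c := by
  rw [Homeomorph.symm_apply_eq, aff_apply, add_sub_cancel_right, ← mul_assoc, ← Complex.ofReal_mul,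
    show 4 / r * (r / 4) = 1 by field_simp, Complex.ofReal_one, one_mul]

/-- the chart at `x`, rescaled so that the disc of radius `r` becomes the disc of radius `4` -/
def dch (x : C) {r : ℝ} (hr : 0 < r) : OpenPartialHomeomorph C ℂ :=
  (((chartAt ℂ x).transHomeomorph (aff (chartAt ℂ x x) hr)).symm.restrOpen (ball 0 4)
    isOpen_ball).symm

variable {x y : C} {r : ℝ} {hr : 0 < r} {z : ℂ}

theorem dch_apply : dch x hr y = ((4 / r : ℝ) : ℂ) * (chartAt ℂ x y - chartAt ℂ x x) := rfl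

theorem dch_symm :
    (dch x hr).symm z = (chartAt ℂ x).symm (((r / 4 : ℝ) : ℂ) * z + chartAt ℂ x x) :=
  congrArg (chartAt ℂ x).symm (aff_symm _ hr z)

theorem dch_self : dch x hr x = 0 := by rw [dch_apply, sub_self, mul_zero]

theorem norm_dch : ‖dch x hr y‖ = 4 / r * dist (chartAt ℂ x y) (chartAt ℂ x x) := by
  rw [dch_apply, norm_mul, Complex.norm_real, Real.norm_of_nonneg (div_pos four_pos hr).le,
    dist_eq_norm]

theorem dch_src : y ∈ (dch x hr).source ↔
    y ∈ (chartAt ℂ x).source ∧ chartAt ℂ x y ∈ ball (chartAt ℂ x x) r := by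
  refine and_congr_right fun _ => ?_
  show dch x hr y ∈ ball (0 : ℂ) 4 ↔ _
  rw [mem_ball_zero_iff, norm_dch, mem_ball, div_mul_eq_mul_div, div_lt_iff₀ hr,
    mul_lt_mul_iff_right₀ four_pos]

theorem aff_mem (hr : 0 < r) (h : z ∈ ball (0 : ℂ) 4) (c : ℂ) : ((r / 4 : ℝ) : ℂ) * z + c ∈ ball c r := by
  rw [mem_ball_iff_norm, add_sub_cancel_right, norm_mul, Complex.norm_real,
    Real.norm_of_nonneg (div_pos hr four_pos).le]
  have := mem_ball_zero_iff.1 h
  nlinarith

theorem dch_tgt (h : ball (chartAt ℂ x x) r ⊆ (chartAt ℂ x).target) :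
    (dch x hr).target = ball 0 4 := inter_eq_right.2 fun z hz => by
  show (aff _ hr).symm z ∈ (chartAt ℂ x).target
  rw [aff_symm]
  exact h (aff_mem hr hz _)

variable [IsManifold 𝓘(ℂ) ω C]

theorem an_chart (x y : C) (hz : z ∈ (chartAt ℂ x).target)
    (h : (chartAt ℂ x).symm z ∈ (chartAt ℂ y).source) :
    AnalyticAt ℂ (fun w => chartAt ℂ y ((chartAt ℂ x).symm w)) z := by
  have a : ContMDiffAt 𝓘(ℂ) 𝓘(ℂ) ω (chartAt ℂ x).symm z :=
    (contMDiffOn_chart_symm (I := 𝓘(ℂ)) (n := ω)).contMDiffAt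
      ((chartAt ℂ x).open_target.mem_nhds hz)
  have b : ContMDiffAt 𝓘(ℂ) 𝓘(ℂ) ω (chartAt ℂ y) ((chartAt ℂ x).symm z) :=
    (contMDiffOn_chart (I := 𝓘(ℂ)) (n := ω)).contMDiffAt ((chartAt ℂ y).open_source.mem_nhds h)
  exact (b.comp z a).contDiffAt.analyticAt

theorem an_dch (x y : C) (hz : z ∈ (chartAt ℂ y).target)
    (h : (chartAt ℂ y).symm z ∈ (chartAt ℂ x).source) :
    AnalyticAt ℂ (fun w => dch x hr ((chartAt ℂ y).symm w)) z :=
  analyticAt_const.mul ((an_chart y x hz h).sub analyticAt_const)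

theorem an_dch_symm (x y : C) (hz : z ∈ (dch x hr).target)
    (h : (dch x hr).symm z ∈ (chartAt ℂ y).source) :
    AnalyticAt ℂ (fun w => chartAt ℂ y ((dch x hr).symm w)) z := by
  have a : (aff _ hr).symm z ∈ (chartAt ℂ x).target := hz.1
  rw [aff_symm] at a
  simp only [dch_symm] at h ⊢
  exact (an_chart x y a h).comp_of_eq (f := fun w => ((r / 4 : ℝ) : ℂ) * w + chartAt ℂ x x)
    ((analyticAt_const.mul analyticAt_id).add analyticAt_const) rfl

/-- the form of `P275AD.Cmp` -/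
theorem cmp_dch (hr : 0 < r) (x : C) : ∀ y ∈ (dch x hr).source,
    AnalyticAt ℂ (fun z => dch x hr ((chartAt ℂ y).symm z)) (chartAt ℂ y y) ∧
      AnalyticAt ℂ (fun z => chartAt ℂ y ((dch x hr).symm z)) (dch x hr y) := fun y hy =>
  ⟨an_dch x y (mem_chart_target ℂ y) (by
      rw [(chartAt ℂ y).left_inv (mem_chart_source ℂ y)]; exact hy.1),
    an_dch_symm x y ((dch x hr).map_source hy) (by
      rw [(dch x hr).left_inv hy]; exact mem_chart_source ℂ y)⟩

variable [CompactSpace C]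

theorem dch_mem (hr : 0 < r) (x : C) : x ∈ (dch x hr).source ∧ ‖dch x hr x‖ < 1 :=
  ⟨dch_src.2 ⟨mem_chart_source ℂ x, mem_ball_self hr⟩, by rw [dch_self, norm_zero]; exact one_pos⟩

/-- atlases of rescaled charts with prescribed radii and centres in `S` -/
theorem exists_at_of (r : C → ℝ) (hr : ∀ x, 0 < r x)
    (h : ∀ x, ball (chartAt ℂ x x) (r x) ⊆ (chartAt ℂ x).target) (S : Set C)
    (hS : ∀ y, ∃ x ∈ S, y ∈ (dch x (hr x)).source ∧ ‖dch x (hr x) y‖ < 1) :
    ∃ (A : At C) (c : Fin A.N → C), A.R = 4 ∧ Function.Injective c ∧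
      ∀ i, c i ∈ S ∧ A.e i = dch (c i) (hr (c i)) := by
  obtain ⟨T, hT⟩ := isCompact_univ.elim_finite_subcover
    (fun x : S => (dch x.1 (hr x)).source ∩ dch x.1 (hr x) ⁻¹' ball 0 1)
    (fun x => (dch x.1 (hr x)).isOpen_inter_preimage isOpen_ball) fun y _ => by
      obtain ⟨x, a, b, c⟩ := hS y
      exact mem_iUnion.2 ⟨⟨x, a⟩, b, mem_ball_zero_iff.2 c⟩
  let c : Fin T.card → C := fun i => (T.equivFin.symm i).1.1
  refine ⟨⟨T.card, 4, by norm_num, fun i => dch (c i) (hr _), fun i => dch_tgt (h _), fun x => ?_,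
    fun i j z hz => ?_⟩, c, rfl, (Subtype.val_injective.comp Subtype.val_injective).comp
      T.equivFin.symm.injective, fun i => ⟨(T.equivFin.symm i).1.2, rfl⟩⟩
  · obtain ⟨y, hy, a, b⟩ := mem_iUnion₂.1 (hT (mem_univ x))
    have e : c (T.equivFin ⟨y, hy⟩) = y := by simp [c]
    exact ⟨T.equivFin ⟨y, hy⟩, by rw [e]; exact a, by rw [e]; exact mem_ball_zero_iff.1 b⟩
  · exact (analyticAt_const.mul ((an_dch_symm (c i) (c j) ((dch_tgt (h _)).symm ▸ hz.1)
      hz.2.1).sub analyticAt_const)).differentiableAt.differentiableWithinAt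

theorem exists_rad {U : Set C} (hU : U ∈ 𝓝 x) : ∃ r, 0 < r ∧
    ball (chartAt ℂ x x) r ⊆ (chartAt ℂ x).target ∧ ∀ hr : 0 < r, (dch x hr).source ⊆ U := by
  obtain ⟨r, hr, h⟩ := Metric.mem_nhds_iff.1 (inter_mem (chart_target_mem_nhds ℂ x)
    ((chartAt ℂ x).continuousAt_symm (mem_chart_target ℂ x) (by
      rw [(chartAt ℂ x).left_inv (mem_chart_source ℂ x)]; exact hU)))
  refine ⟨r, hr, fun z hz => (h hz).1, fun _ y hy => ?_⟩
  rw [dch_src] at hy
  have := (h hy.2).2
  rwa [mem_preimage, (chartAt ℂ x).left_inv hy.1] at this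

/-- atlases subordinate to given neighbourhoods -/
theorem exists_at_sub (U : C → Set C) (hU : ∀ x, U x ∈ 𝓝 x) :
    ∃ (A : At C) (c : Fin A.N → C) (r : C → ℝ) (hr : ∀ x, 0 < r x), A.R = 4 ∧
      Function.Injective c ∧ ∀ i, A.e i = dch (c i) (hr (c i)) ∧ (A.e i).source ⊆ U (c i) := by
  choose r hr h h' using fun x => exists_rad (hU x)
  obtain ⟨A, c, a, b, d⟩ := exists_at_of r hr h univ fun y => ⟨y, trivial, dch_mem _ y⟩
  exact ⟨A, c, r, hr, a, b, fun i => ⟨(d i).2, by rw [(d i).2]; exact h' _ _⟩⟩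

variable (C) in
/-- existence of an atlas whose charts are holomorphic; the last clause is `P275AD.Ok A` -/
theorem exists_at : ∃ A : At C, A.R = 4 ∧ ∀ i, ∀ y ∈ (A.e i).source,
    AnalyticAt ℂ (fun z => A.e i ((chartAt ℂ y).symm z)) (chartAt ℂ y y) ∧
      AnalyticAt ℂ (fun z => chartAt ℂ y ((A.e i).symm z)) (A.e i y) := by
  obtain ⟨A, c, r, hr, a, -, d⟩ := exists_at_sub (C := C) (fun _ => univ) fun _ => univ_mem
  exact ⟨A, a, fun i => by rw [(d i).1]; exact cmp_dch _ _⟩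

/-- an atlas adapted to a point `p`: the chart `i₀` is the rescaled chart at `p` (any small radius
`s`), and the other charts do not meet its closed disc of radius `1 / 2` -/
theorem exists_at_pt [T2Space C] (p : C) {s : ℝ} (hs : 0 < s)
    (h : ball (chartAt ℂ p p) s ⊆ (chartAt ℂ p).target) :
    ∃ (A : At C) (i₀ : Fin A.N), A.R = 4 ∧ A.e i₀ = dch p hs ∧
      (∀ i, i ≠ i₀ → ∀ y ∈ (A.e i).source, y ∈ (A.e i₀).source → 1 / 2 < ‖A.e i₀ y‖) ∧
      ∀ i, ∀ y ∈ (A.e i).source,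
        AnalyticAt ℂ (fun z => A.e i ((chartAt ℂ y).symm z)) (chartAt ℂ y y) ∧
          AnalyticAt ℂ (fun z => chartAt ℂ y ((A.e i).symm z)) (A.e i y) := by
  classical
  set K := (dch p hs).symm '' closedBall 0 (1 / 2) with hK
  have kc : IsClosed K := ((isCompact_closedBall _ _).image_of_continuousOn
    ((dch p hs).continuousOn_symm.mono (by
      rw [dch_tgt h]; exact closedBall_subset_ball (by norm_num)))).isClosed
  have kp : p ∈ K := ⟨0, mem_closedBall_self (by norm_num), by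
    rw [← dch_self (x := p) (hr := hs), (dch p hs).left_inv (dch_mem hs p).1]⟩
  have : ∀ x : C, ∃ r, 0 < r ∧ ball (chartAt ℂ x x) r ⊆ (chartAt ℂ x).target ∧ (x = p → r = s) ∧
      (x ∉ K → ∀ hr : 0 < r, (dch x hr).source ⊆ Kᶜ) := fun x => by
    by_cases e : x ∈ K
    · by_cases e' : x = p
      · exact ⟨s, hs, e' ▸ h, fun _ => rfl, fun a => (a e).elim⟩
      · obtain ⟨r, a, b, -⟩ := exists_rad (x := x) univ_mem
        exact ⟨r, a, b, fun c => (e' c).elim, fun c => (c e).elim⟩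
    · obtain ⟨r, a, b, c⟩ := exists_rad (kc.isOpen_compl.mem_nhds e)
      exact ⟨r, a, b, fun d => (e (d ▸ kp)).elim, fun _ => c⟩
  choose r hr h1 h2 h3 using this
  have e : dch p (hr p) = dch p hs := by
    have := h2 p rfl
    subst this
    rfl
  obtain ⟨A, c, a, b, d⟩ := exists_at_of r hr h1 ({p} ∪ Kᶜ) fun y => by
    by_cases k : y ∈ K
    · obtain ⟨z, hz, rfl⟩ := k
      have t : z ∈ (dch p hs).target := by
        rw [dch_tgt h]; exact closedBall_subset_ball (by norm_num) hz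
      refine ⟨p, Or.inl rfl, by rw [e]; exact (dch p hs).map_target t, ?_⟩
      rw [e, (dch p hs).right_inv t]
      exact (mem_closedBall_zero_iff.1 hz).trans_lt (by norm_num)
    · exact ⟨y, Or.inr k, dch_mem _ y⟩
  have f : ∀ i, c i ≠ p → (A.e i).source ⊆ Kᶜ := fun i hi => by
    rw [(d i).2]
    exact h3 _ ((d i).1.resolve_left hi) _
  obtain ⟨i₀, g, -⟩ := A.cov p
  have g' : c i₀ = p := by_contra fun t => f i₀ t g kp
  have g2 : A.e i₀ = dch p hs := by rw [(d i₀).2, ← e]; subst g'; rfl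
  refine ⟨A, i₀, a, g2, fun i hi y hy hy' => not_le.1 fun t => f i (fun u => hi (b (u.trans
    g'.symm))) hy ?_, fun i => by rw [(d i).2]; exact cmp_dch _ _⟩
  rw [g2] at hy' t
  exact ⟨_, mem_closedBall_zero_iff.2 t, (dch p hs).left_inv hy'⟩

end Vale.Agent.P275GC
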