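import Vale.Agent.P275GC.Pl
import Mathlib.Analysis.Meromorphic.Order

/-!
# P275, block GC: the degree of a line bundle
-/

set_option linter.unusedSectionVars false

open scoped Topology ComplexConjugate ContDiff
open Set Filter Metric MeasureTheory Complex

noncomputable section

namespace Vale.Agent.P275GC

open Vale.Agent.P281Z.Hm Vale.Agent.P275NA

namespace At

variable {C : Type} [TopologicalSpace C] {A : At C} {i j k : Fin A.N} {z : ℂ} {x : C}
  {l l' : Fin A.N → Fin A.N → ℂ → ℂ} {h h' : Fin A.N → ℂ → ℝ} {s : Fin A.N → ℂ → ℂ}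
  {n : WithTop ℕ∞}

theorem cv_eq : A.cv h i z = -lp (fun w => Real.log (h i w)) z := rfl

theorem Mt.of_le {m : WithTop ℕ∞} (H : A.Mt n l h) (e : m ≤ n) : A.Mt m l h :=
  ⟨H.sm.of_le e, H.pos, H.tr⟩

theorem Mt.log (H : A.Mt n l h) : A.Sm n fun i z => Real.log (h i z) :=
  fun i z hz => ((H.sm.at hz i).log (H.pos i z hz).ne').contDiffWithinAt

theorem Mt.congr (H : A.Mt n l h) (e : ∀ i j, ∀ z ∈ A.O i j, normSq (l i j z) = normSq (l' i j z)) :
    A.Mt n l' h := ⟨H.sm, H.pos, fun i j z hz => e i j z hz ▸ H.tr i j z hz⟩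

theorem Mt.mul (H : A.Mt n l h) (H' : A.Mt n l' h') :
    A.Mt n (fun i j z => l i j z * l' i j z) fun i z => h i z * h' i z :=
  ⟨fun i => (H.sm i).mul (H'.sm i), fun i z hz => mul_pos (H.pos i z hz) (H'.pos i z hz),
    fun i j z hz => by rw [H.tr i j z hz, H'.tr i j z hz, map_mul]; ring⟩

theorem Mt.inv (H : A.Mt n l h) : A.Mt n (fun i j z => (l i j z)⁻¹) fun i z => (h i z)⁻¹ :=
  ⟨fun i => (H.sm i).inv fun z hz => (H.pos i z hz).ne', fun i z hz => inv_pos.2 (H.pos i z hz),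
    fun i j z hz => by rw [H.tr i j z hz, map_inv₀, mul_inv]⟩

theorem mt_one : A.Mt n (fun _ _ _ => 1) fun _ _ => 1 :=
  ⟨fun _ => contDiffOn_const, fun _ _ _ => one_pos, fun _ _ _ _ => by simp⟩

/-- a metric times a positive function -/
theorem Mt.fn_mul (H : A.Mt n l h) (hf : A.Fn h') (hs : A.Sm n h')
    (hp : ∀ i, ∀ z ∈ ball (0 : ℂ) A.R, 0 < h' i z) : A.Mt n l fun i z => h' i z * h i z :=
  ⟨fun i => (hs i).mul (H.sm i), fun i z hz => mul_pos (hp i z hz) (H.pos i z hz),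
    fun i j z hz => by rw [H.tr i j z hz, hf i j z hz]; ring⟩

theorem Mt.sm_cv {m : WithTop ℕ∞} (H : A.Mt n l h) (e : m + 1 + 1 ≤ n) : A.Sm m (A.cv h) :=
  fun i => (H.log.lp e i).neg

theorem Mt.ct_cv (H : A.Mt 2 l h) : A.Ct (A.cv h) := (H.sm_cv (m := 0) (by norm_num)).ct

theorem Mt.dn_cv (H : A.Mt 2 l h) (hl : A.Cc l) : A.Dn (A.cv h) := fun i j z hz => by
  have a := hl.an hz
  have b := hl.ne hz
  have e : (fun w => Real.log (h j (A.tr i j w))) =ᶠ[𝓝 z]
      fun w => Real.log (normSq (l i j w)) + Real.log (h i w) := by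
    filter_upwards [O_nhds hz] with w hw
    rw [H.tr i j w hw, Real.log_mul (normSq_pos.2 (hl.ne hw)).ne' (H.pos i w hw.1).ne']
  rw [cv_eq, cv_eq, smul_eq_mul, mul_neg, ← lp_tr hz (H.log.at (tr_ball hz) j), lp_congr e,
    lp_add (cd_log_nsq a b) (H.log.at hz.1 i), lp_log_nsq a b, zero_add]

theorem cv_mul (H : A.Mt 2 l h) (H' : A.Mt 2 l' h') (hz : z ∈ ball (0 : ℂ) A.R) :
    A.cv (fun i z => h i z * h' i z) i z = A.cv h i z + A.cv h' i z := by
  rw [cv_eq, cv_eq, cv_eq, ← neg_add, ← lp_add (H.log.at hz i) (H'.log.at hz i)]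
  refine congrArg _ (lp_congr (eventually_of_mem (isOpen_ball.mem_nhds hz) fun w hw => ?_))
  exact Real.log_mul (H.pos i w hw).ne' (H'.pos i w hw).ne'

variable [T2Space C]

theorem int_cv_eq (H : A.Mt 2 l h) (H' : A.Mt 2 l h') : A.int (A.cv h) = A.int (A.cv h') := by
  have f : A.Fn fun i z => Real.log (h' i z) - Real.log (h i z) := fun i j z hz => by
    have a := H.pos j _ (tr_ball hz)
    rw [H.tr i j z hz] at a
    have b : normSq (l i j z) ≠ 0 := left_ne_zero_of_mul a.ne'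
    beta_reduce
    rw [H.tr i j z hz, H'.tr i j z hz, Real.log_mul b (H.pos i z hz.1).ne',
      Real.log_mul b (H'.pos i z hz.1).ne']
    ring
  rw [← sub_eq_zero, ← int_sub H.ct_cv.in H'.ct_cv.in, ← f.int_lp fun i => (H'.log i).sub (H.log i)]
  refine int_congr' fun i z hz => ?_
  rw [cv_eq, cv_eq, lp_sub (H'.log.at hz i) (H.log.at hz i)]
  ring

/-- the degree can be computed with any metric -/
theorem deg_eq (hl : A.Cc l) (H : A.Mt 2 l h) : A.deg l = Real.pi⁻¹ * A.int (A.cv h) := by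
  rw [deg, int_cv_eq (hl.mt.of_le two_le) H]

theorem int_cv (hl : A.Cc l) (H : A.Mt 2 l h) : A.int (A.cv h) = Real.pi * A.deg l := by
  rw [deg_eq hl H, mul_inv_cancel_left₀ Real.pi_ne_zero]

theorem deg_congr (hl : A.Cc l) (hl' : A.Cc l') (e : ∀ i j, ∀ z ∈ A.O i j, l i j z = l' i j z) :
    A.deg l = A.deg l' :=
  (deg_eq hl' ((hl.mt.of_le two_le).congr fun i j z hz => by rw [e i j z hz])).symm

theorem deg_one : A.deg (fun _ _ _ => 1) = 0 := by
  rw [deg_eq A.cc_one mt_one, int_congr (v := fun _ _ => 0) fun i z _ => by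
    rw [cv_eq, lp_const, neg_zero], int_zero, mul_zero]

theorem deg_tens (hl : A.Cc l) (hl' : A.Cc l') :
    A.deg (fun i j z => l i j z * l' i j z) = A.deg l + A.deg l' := by
  have H := hl.mt.of_le two_le
  have H' := hl'.mt.of_le two_le
  rw [deg_eq (hl.tens hl') (H.mul H'), int_congr' fun i z hz => cv_mul H H' hz,
    int_add H.ct_cv.in H'.ct_cv.in, mul_add, deg, deg]

theorem deg_dual (hl : A.Cc l) : A.deg (fun i j z => (l i j z)⁻¹) = -A.deg l := by
  rw [eq_neg_iff_add_eq_zero, ← deg_tens hl.dual hl, ← deg_one (A := A)]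
  exact deg_congr (hl.dual.tens hl) A.cc_one fun i j z hz => inv_mul_cancel₀ (hl.ne hz)

theorem deg_pow (hl : A.Cc l) (a : ℕ) : A.deg (fun i j z => l i j z ^ a) = a * A.deg l := by
  induction a with
  | zero => simpa using deg_one
  | succ a ih =>
    simp only [pow_succ]
    rw [deg_tens (hl.pow a) hl, ih]
    push_cast; ring

theorem Cc.zpow (hl : A.Cc l) (a : ℤ) : A.Cc fun i j z => l i j z ^ a where
  hol i j := (hl.hol i j).zpow (Or.inl fun _ h => hl.ne h)
  one i z h := by rw [hl.one i z h, one_zpow]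
  mul i j k z h h' := by rw [hl.mul i j k z h h', mul_zpow]

theorem deg_zpow (hl : A.Cc l) (a : ℤ) : A.deg (fun i j z => l i j z ^ a) = a * A.deg l := by
  obtain ⟨b, rfl | rfl⟩ := a.eq_nat_or_neg
  · simpa using deg_pow hl b
  · simp only [zpow_neg, zpow_natCast]
    rw [deg_dual (hl.pow b), deg_pow hl]
    push_cast; ring

theorem Cc.prod {ι : Type} (t : Finset ι) {L : ι → Fin A.N → Fin A.N → ℂ → ℂ}
    (hL : ∀ a ∈ t, A.Cc (L a)) : (A.Cc fun i j z => ∏ a ∈ t, L a i j z) ∧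
      A.deg (fun i j z => ∏ a ∈ t, L a i j z) = ∑ a ∈ t, A.deg (L a) := by
  classical
  induction t using Finset.induction_on with
  | empty => simpa using ⟨A.cc_one, deg_one⟩
  | insert a t ha ih =>
    obtain ⟨b, c⟩ := ih fun b hb => hL b (Finset.mem_insert_of_mem hb)
    have d := hL a (Finset.mem_insert_self _ _)
    simp only [Finset.prod_insert ha, Finset.sum_insert ha]
    exact ⟨d.tens b, by rw [deg_tens d b, c]⟩

/-! ### meromorphic sections -/

theorem gl_ev {F : Type} {u : Fin A.N → ℂ → F}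
    (hu : ∀ i j, ∀ z ∈ A.O i j, ∀ᶠ w in 𝓝[≠] z, u i w = u j (A.tr i j w))
    (hz : z ∈ ball (0 : ℂ) A.R) : ∀ᶠ w in 𝓝[≠] z, A.gl u ((A.e i).symm w) = u i w := by
  have a : ∀ j, ∀ᶠ w in 𝓝[≠] z, w ∈ A.O i j → ‖A.tr i j w‖ < 1 → u i w = u j (A.tr i j w) :=
    fun j => by
      by_cases b : z ∈ A.O i j
      · exact (hu i j z b).mono fun _ c _ _ => c
      · exact nhdsWithin_le_nhds ((ev_φ hz b).mono fun _ c d e => ((φ_pos d e).ne' c).elim)
  filter_upwards [eventually_all.2 a, nhdsWithin_le_nhds (isOpen_ball.mem_nhds hz)] with w b c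
  exact (b _ (pick_spec c i).1 (pick_spec c i).2).symm

/-- a function on `C` which vanishes near every point, the point excluded, has finite support -/
theorem finite_of_ev (A : At C) {P : C → Prop}
    (hP : ∀ i, ∀ z ∈ ball (0 : ℂ) A.R, ∀ᶠ w in 𝓝[≠] z, ¬P ((A.e i).symm w)) : {x | P x}.Finite := by
  have := A.compactSpace
  have a : ∀ x, {y | y ≠ x → ¬P y} ∈ 𝓝 x := fun x => by
    obtain ⟨i, b, -⟩ := A.cov x
    filter_upwards [((A.e i).continuousAt b).eventually (eventually_nhdsWithin_iff.1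
      (hP i _ (map_src b))), (A.e i).open_source.mem_nhds b] with y c d e
    rw [← (A.e i).left_inv d]
    exact c fun f => e ((A.e i).injOn d b f)
  obtain ⟨T, -, hT⟩ := isCompact_univ.elim_nhds_subcover _ fun x _ => a x
  refine T.finite_toSet.subset fun y hy => ?_
  obtain ⟨x, b, c⟩ := mem_iUnion₂.1 (hT (mem_univ y))
  exact (by_contra fun e => c e hy : y = x) ▸ b

/-- `s` is a meromorphic section of `l` with orders `m` -/
structure Mero (A : At C) (l : Fin A.N → Fin A.N → ℂ → ℂ) (s : Fin A.N → ℂ → ℂ) (m : C → ℤ) :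
    Prop where
  mer : ∀ i, ∀ z ∈ ball (0 : ℂ) A.R, MeromorphicAt (s i) z
  ord : ∀ i, ∀ z ∈ ball (0 : ℂ) A.R, meromorphicOrderAt (s i) z = (m ((A.e i).symm z) : ℤ)
  tr : ∀ i j, ∀ z ∈ A.O i j, ∀ᶠ w in 𝓝[≠] z, s i w = l i j w * s j (A.tr i j w)

theorem Mero.fin {m : C → ℤ} (M : A.Mero l s m) : (Function.support m).Finite :=
  A.finite_of_ev fun i z hz => by
    have a := (meromorphicOrderAt_ne_top_iff_eventually_ne_zero (M.mer i z hz)).1
      (by rw [M.ord i z hz]; exact WithTop.coe_ne_top)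
    filter_upwards [a, (M.mer i z hz).eventually_analyticAt, nhdsWithin_le_nhds
      (isOpen_ball.mem_nhds hz)] with w b c d
    have e := M.ord i w d
    rw [c.meromorphicOrderAt_eq, c.analyticOrderAt_eq_zero.2 b] at e
    exact not_not.2 (WithTop.coe_injective e.symm)

/-- the degree is the number of zeros minus the number of poles -/
theorem Mero.deg {m : C → ℤ} (M : A.Mero l s m) (hl : A.Cc l) :
    A.deg l = ((∑ᶠ x, m x : ℤ) : ℝ) := by
  have H := hl.mt.of_le two_le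
  have e := fun i z hz => gl_ev (A := A) (i := i) (z := z)
    (u := fun i z => A.mt l i z * normSq (s i z)) (fun i j z hz => by
      filter_upwards [M.tr i j z hz, nhdsWithin_le_nhds (O_nhds hz)] with w a b
      rw [a, H.tr i j w b, map_mul]; ring) hz
  have a := (pl' (A := A) (β := fun i z => -A.cv (A.mt l) i z)
    (v := A.gl fun i z => A.mt l i z * normSq (s i z)) M.fin fun i z hz => by
    obtain ⟨g, g1, g2, g3⟩ := (meromorphicOrderAt_eq_int_iff (M.mer i z hz)).1 (M.ord i z hz)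
    refine ⟨fun w => A.mt l i w * normSq (g w), (H.sm.at hz i).mul (cd_nsq (cd_an g1)),
      mul_pos (H.pos i z hz) (normSq_pos.2 g2), ?_, ?_⟩
    · rw [cv_eq, neg_neg, ← add_zero (lp _ z), ← lp_log_nsq g1 g2,
        ← lp_add (H.log.at hz i) (cd_log_nsq g1 g2)]
      refine lp_congr ?_
      filter_upwards [isOpen_ball.mem_nhds hz, g1.continuousAt.eventually_ne g2] with w b c
      rw [Real.log_mul (H.pos i w b).ne' (normSq_pos.2 c).ne']
    · filter_upwards [e i z hz, g3] with w b c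
      rw [b, c, smul_eq_mul, map_mul, map_zpow₀, normSq_eq_norm_sq, zpow_mul, zpow_ofNat]
      ring).2.2
  rw [int_neg, neg_mul, neg_inj] at a
  rw [At.deg, a, inv_mul_cancel_left₀ Real.pi_ne_zero]

theorem ord_tr (hl : A.Cc l) (hz : z ∈ A.O i j)
    (e : ∀ᶠ w in 𝓝[≠] z, s i w = l i j w * s j (A.tr i j w)) :
    meromorphicOrderAt (s i) z = meromorphicOrderAt (s j) (A.tr i j z) := by
  rw [meromorphicOrderAt_congr (f₂ := l i j * (s j ∘ A.tr i j)) e,
    meromorphicOrderAt_mul_of_ne_zero (hl.an hz) (hl.ne hz),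
    meromorphicOrderAt_comp_of_deriv_ne_zero (an_tr hz) (d_ne hz)]

/-- the order of a section at a point of `C` -/
def od (A : At C) (s : Fin A.N → ℂ → ℂ) : C → ℤ :=
  A.gl fun i z => (meromorphicOrderAt (s i) z).untop₀

theorem mero_od (hl : A.Cc l) (h1 : ∀ i, ∀ z ∈ ball (0 : ℂ) A.R, MeromorphicAt (s i) z)
    (h2 : ∀ i, ∀ z ∈ ball (0 : ℂ) A.R, meromorphicOrderAt (s i) z ≠ ⊤)
    (h3 : ∀ i j, ∀ z ∈ A.O i j, ∀ᶠ w in 𝓝[≠] z, s i w = l i j w * s j (A.tr i j w)) :
    A.Mero l s (A.od s) := ⟨h1, fun i z hz => by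
  have f : A.Fn fun i z => (meromorphicOrderAt (s i) z).untop₀ := fun i j z hz => by
    beta_reduce; rw [ord_tr hl hz (h3 i j z hz)]
  rw [show A.od s ((A.e i).symm z) = _ from f.pl_gl hz, WithTop.coe_untop₀_of_ne_top (h2 i z hz)],
  h3⟩

/-- on a connected curve it is enough that the order is finite at one point -/
theorem ord_ne_top [PreconnectedSpace C] (hl : A.Cc l)
    (h1 : ∀ i, ∀ z ∈ ball (0 : ℂ) A.R, MeromorphicAt (s i) z)
    (h3 : ∀ i j, ∀ z ∈ A.O i j, ∀ᶠ w in 𝓝[≠] z, s i w = l i j w * s j (A.tr i j w))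
    (hz : z ∈ ball (0 : ℂ) A.R) (h2 : meromorphicOrderAt (s i) z ≠ ⊤) (j : Fin A.N) {w : ℂ}
    (hw : w ∈ ball (0 : ℂ) A.R) : meromorphicOrderAt (s j) w ≠ ⊤ := fun e => h2 <| by
  refine Fn.conn (A := A) (P := fun i z => meromorphicOrderAt (s i) z = ⊤)
    (fun i j z hz => by beta_reduce; rw [ord_tr hl hz (h3 i j z hz)]) (fun i z _ a => ?_)
    (fun i z a b => ?_) hw e i hz
  · simp only [meromorphicOrderAt_eq_top_iff] at a ⊢
    filter_upwards [(eventually_nhdsWithin_iff.1 a).eventually_nhds] with t c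
    by_cases d : t = z
    · exact d ▸ a
    · filter_upwards [nhdsWithin_le_nhds c, nhdsWithin_le_nhds (isOpen_ne.mem_nhds d)] with y f g
        using f g
  · by_contra c
    have d := (meromorphicOrderAt_ne_top_iff_eventually_ne_zero (h1 i z a)).1 c
    obtain ⟨t, f, g⟩ := (b.and_eventually (eventually_nhdsWithin_iff.1 d).eventually_nhds).exists
    by_cases e : t = z
    · exact c (e ▸ f)
    · obtain ⟨y, p, q, r⟩ := ((meromorphicOrderAt_eq_top_iff.1 f).and ((g.and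
        (isOpen_ne.mem_nhds e)).filter_mono nhdsWithin_le_nhds)).exists
      exact q r p

/-! ### holomorphic sections -/

theorem Sec.mero [PreconnectedSpace C] (hs : A.Sec l s) (hh : A.Hl s) (hl : A.Cc l)
    (hz : z ∈ ball (0 : ℂ) A.R) (h0 : s i z ≠ 0) : A.Mero l s (A.od s) := by
  have h1 := fun i z hz => (hh.an (z := z) hz i).meromorphicAt
  have h3 := fun i j z hz => nhdsWithin_le_nhds (s := {z}ᶜ) (hs.ev (i := i) (j := j) (z := z) hz)
  refine mero_od hl h1 (fun j w hw => ord_ne_top (i := i) hl h1 h3 hz ?_ j hw) h3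
  rw [(hh.an hz i).meromorphicOrderAt_eq, (hh.an hz i).analyticOrderAt_eq_zero.2 h0]
  exact WithTop.coe_ne_top

theorem Mero.nonneg {m : C → ℤ} (M : A.Mero l s m) (hh : A.Hl s) (x : C) : 0 ≤ m x := by
  obtain ⟨i, a, -⟩ := A.cov x
  have b := (hh.an (map_src a) i).meromorphicOrderAt_nonneg
  rw [M.ord i _ (map_src a), (A.e i).left_inv a] at b
  exact_mod_cast b

theorem Mero.eq_zero_iff {m : C → ℤ} (M : A.Mero l s m) (hh : A.Hl s)
    (hz : z ∈ ball (0 : ℂ) A.R) : m ((A.e i).symm z) = 0 ↔ s i z ≠ 0 := by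
  rw [← (hh.an hz i).analyticOrderAt_eq_zero, ← WithTop.coe_eq_coe, ← M.ord i z hz,
    (hh.an hz i).meromorphicOrderAt_eq]
  cases analyticOrderAt (s i) z <;> simp

/-- a line bundle with a nonzero holomorphic section has nonnegative degree -/
theorem Sec.deg_nonneg [PreconnectedSpace C] (hs : A.Sec l s) (hh : A.Hl s) (hl : A.Cc l)
    (hz : z ∈ ball (0 : ℂ) A.R) (h0 : s i z ≠ 0) : 0 ≤ A.deg l := by
  have M := hs.mero hh hl hz h0
  rw [M.deg hl]
  exact_mod_cast finsum_nonneg (M.nonneg hh)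

theorem Sec.eq_zero_of_deg_neg [PreconnectedSpace C] (hs : A.Sec l s) (hh : A.Hl s) (hl : A.Cc l)
    (hd : A.deg l < 0) (i : Fin A.N) (hz : z ∈ ball (0 : ℂ) A.R) : s i z = 0 :=
  by_contra fun h0 => (hs.deg_nonneg hh hl hz h0).not_gt hd

/-- the order at one point is at most the degree -/
theorem Mero.le_deg {m : C → ℤ} (M : A.Mero l s m) (hh : A.Hl s) (hl : A.Cc l) (x : C) :
    (m x : ℝ) ≤ A.deg l := by
  rw [M.deg hl]
  exact_mod_cast single_le_finsum x M.fin (M.nonneg hh)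

/-- a section with a zero gives degree at least one -/
theorem Sec.one_le_deg [PreconnectedSpace C] (hs : A.Sec l s) (hh : A.Hl s) (hl : A.Cc l)
    (hz : z ∈ ball (0 : ℂ) A.R) (h0 : s i z ≠ 0) {w : ℂ} (hw : w ∈ ball (0 : ℂ) A.R)
    (h1 : s j w = 0) : 1 ≤ A.deg l := by
  have M := hs.mero hh hl hz h0
  have a : A.od s ((A.e j).symm w) ≠ 0 := fun e => (M.eq_zero_iff hh hw).1 e h1
  have b : 1 ≤ A.od s ((A.e j).symm w) := (M.nonneg hh _).lt_of_ne' a
  exact le_trans (by exact_mod_cast b) (M.le_deg hh hl _)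

theorem Sec.deg_eq_zero (hs : A.Sec l s) (hh : A.Hl s) (hl : A.Cc l)
    (h0 : ∀ i, ∀ z ∈ ball (0 : ℂ) A.R, s i z ≠ 0) : A.deg l = 0 := by
  have M : A.Mero l s fun _ => 0 := ⟨fun i z hz => (hh.an hz i).meromorphicAt, fun i z hz => by
    rw [(hh.an hz i).meromorphicOrderAt_eq, (hh.an hz i).analyticOrderAt_eq_zero.2 (h0 i z hz)]
    rfl, fun i j z hz => nhdsWithin_le_nhds (hs.ev hz)⟩
  simpa using M.deg hl

/-- isomorphic line bundles have the same degree -/
theorem deg_iso (hl : A.Cc l) (hl' : A.Cc l') (hh : A.Hl s)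
    (h0 : ∀ i, ∀ z ∈ ball (0 : ℂ) A.R, s i z ≠ 0)
    (e : ∀ i j, ∀ z ∈ A.O i j, s i z * l i j z = l' i j z * s j (A.tr i j z)) :
    A.deg l = A.deg l' := by
  have a := Sec.deg_eq_zero (l := fun i j z => l' i j z * (l i j z)⁻¹) (fun i j z hz => by
    rw [smul_eq_mul, mul_right_comm, ← e i j z hz, mul_inv_cancel_right₀ (hl.ne hz)]) hh
    (hl'.tens hl.dual) h0
  rw [deg_tens hl' hl.dual, deg_dual hl] at a
  linarith

/-- a nonzero homomorphism of line bundles increases the degree -/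
theorem deg_le_of_hom [PreconnectedSpace C] (hl : A.Cc l) (hl' : A.Cc l') (hh : A.Hl s)
    (hz : z ∈ ball (0 : ℂ) A.R) (h0 : s i z ≠ 0)
    (e : ∀ i j, ∀ z ∈ A.O i j, s i z * l i j z = l' i j z * s j (A.tr i j z)) :
    A.deg l ≤ A.deg l' := by
  have a := Sec.deg_nonneg (l := fun i j z => l' i j z * (l i j z)⁻¹) (fun i j z hz => by
    rw [smul_eq_mul, mul_right_comm, ← e i j z hz, mul_inv_cancel_right₀ (hl.ne hz)]) hh
    (hl'.tens hl.dual) hz h0
  rw [deg_tens hl' hl.dual, deg_dual hl] at a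
  linarith

end At

end Vale.Agent.P275GC
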