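import Vale.Agent.P275GC.Int
import Vale.Agent.P275NA.Defs
import Mathlib.Analysis.Complex.AbsMax
import Mathlib.Analysis.Normed.Module.HahnBanach
import Mathlib.Analysis.LocallyConvex.SeparatingDual

/-!
# P275, block GC: differential calculus of compatible families, Stokes
-/

set_option linter.unusedSectionVars false

open scoped Topology ComplexConjugate ContDiff
open Set Filter Metric MeasureTheory Complex

noncomputable section

namespace Vale.Agent.P275GC

open Vale.Agent.P281Z.Hm Vale.Agent.P275NA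

variable {F G H : Type} [NormedAddCommGroup F] [NormedSpace ℝ F] [NormedSpace ℂ F]
  [IsScalarTower ℝ ℂ F] [NormedAddCommGroup G] [NormedSpace ℝ G] [NormedSpace ℂ G]
  [IsScalarTower ℝ ℂ G] [NormedAddCommGroup H] [NormedSpace ℝ H] [NormedSpace ℂ H]
  [IsScalarTower ℝ ℂ H]

section plane
variable {f : ℂ → F} {z : ℂ} {m n : WithTop ℕ∞}

theorem cd_fd (hf : ContDiffAt ℝ n f z) (h : m + 1 ≤ n) (v : ℂ) :
    ContDiffAt ℝ m (fun w => fderiv ℝ f w v) z := (hf.fderiv_right h).clm_apply contDiffAt_const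

theorem cd_csmul (c : ℂ) (hf : ContDiffAt ℝ n f z) : ContDiffAt ℝ n (fun w => c • f w) z :=
  ((c • ContinuousLinearMap.id ℂ F).restrictScalars ℝ).contDiff.contDiffAt.comp z hf

theorem cd_smul {a : ℂ → ℂ} (ha : ContDiffAt ℝ n a z) (hf : ContDiffAt ℝ n f z) :
    ContDiffAt ℝ n (fun w => a w • f w) z :=
  (isBoundedBilinearMap_smul (𝕜 := ℝ) (A := ℂ) (E := F)).contDiff.contDiffAt.comp z (ha.prodMk hf)

theorem cd_dz (hf : ContDiffAt ℝ n f z) (h : m + 1 ≤ n) : ContDiffAt ℝ m (dz f) z :=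
  cd_csmul _ ((cd_fd hf h _).sub (cd_csmul _ (cd_fd hf h _)))

theorem cd_db (hf : ContDiffAt ℝ n f z) (h : m + 1 ≤ n) : ContDiffAt ℝ m (db f) z :=
  cd_csmul _ ((cd_fd hf h _).add (cd_csmul _ (cd_fd hf h _)))

theorem cd_lp {u : ℂ → ℝ} (hu : ContDiffAt ℝ n u z) (h : m + 1 + 1 ≤ n) : ContDiffAt ℝ m (lp u) z :=
  reCLM.contDiff.contDiffAt.comp z (cd_db (cd_dz (cd_ofReal hu) h) le_rfl)

theorem dz_comp {g : ℂ → ℂ} (hf : DifferentiableAt ℝ f (g z)) (hg : DifferentiableAt ℂ g z) :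
    dz (fun x => f (g x)) z = deriv g z • dz f (g z) := by
  rw [dz, wd_comp hf hg, ← wd_smulv, smul_eq_mul, mul_one, fderiv_apply_one_eq_deriv]

theorem db_comp {g : ℂ → ℂ} (hf : DifferentiableAt ℝ f (g z)) (hg : DifferentiableAt ℂ g z) :
    db (fun x => f (g x)) z = conj (deriv g z) • db f (g z) := by
  rw [db, wb_comp hf hg, ← wb_smulv, smul_eq_mul, mul_one, fderiv_apply_one_eq_deriv]

theorem dz_hol (hf : DifferentiableAt ℂ f z) : dz f z = deriv f z := by
  rw [dz, wd_hol hf, fderiv_apply_one_eq_deriv]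

theorem hol_of_db (hf : DifferentiableAt ℝ f z) (h : db f z = 0) : DifferentiableAt ℂ f z :=
  hol_of_wb hf fun v => by
    have := wb_smulv v f z 1
    rwa [smul_eq_mul, mul_one, show wb 1 f z = 0 from h, smul_zero] at this

theorem lp_congr {u v : ℂ → ℝ} (h : u =ᶠ[𝓝 z] v) : lp u z = lp v z :=
  congrArg re (wb_congr (wd_congr_ev (h.mono fun _ a => congrArg ofReal a) 1) 1)

theorem lp_eq {u : ℂ → ℝ} (hu : ContDiffAt ℝ 2 u z) :
    db (dz fun x => (u x : ℂ)) z = (lp u z : ℂ) := by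
  rw [P275NA.lp, db, dz, wb_wd_ofReal hu, ofReal_re]

theorem lp_levi {u : ℂ → ℝ} (hu : ContDiffAt ℝ 2 u z) : lp u z = P284Z.levi u z 1 / 4 := by
  rw [P275NA.lp, db, dz, wb_wd_ofReal hu, ofReal_re]

theorem lp_add {u v : ℂ → ℝ} (hu : ContDiffAt ℝ 2 u z) (hv : ContDiffAt ℝ 2 v z) :
    lp (fun x => u x + v x) z = lp u z + lp v z := by
  rw [lp_levi (hu.add hv), lp_levi hu, lp_levi hv, levi_add hu hv, add_div]

theorem lp_const (c : ℝ) (z : ℂ) : lp (fun _ => c) z = 0 := by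
  rw [lp_levi contDiffAt_const, levi_const, zero_div]

theorem lp_neg {u : ℂ → ℝ} (hu : ContDiffAt ℝ 2 u z) : lp (fun x => -u x) z = -lp u z := by
  rw [lp_levi hu.neg, lp_levi hu, levi_neg, neg_div]

theorem lp_sub {u v : ℂ → ℝ} (hu : ContDiffAt ℝ 2 u z) (hv : ContDiffAt ℝ 2 v z) :
    lp (fun x => u x - v x) z = lp u z - lp v z := by
  simp only [sub_eq_add_neg]
  rw [lp_add hu hv.neg, lp_neg hv]

theorem lp_cmul {u : ℂ → ℝ} (c : ℝ) (hu : ContDiffAt ℝ 2 u z) :
    lp (fun x => c * u x) z = c * lp u z := by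
  have e : (dz fun x => ((c * u x : ℝ) : ℂ)) =ᶠ[𝓝 z] fun x => (c : ℂ) • dz (fun x => (u x : ℂ)) x :=
    ((cd_ofReal hu).eventually (by simp)).mono fun x hx => by
      simp only [ofReal_mul]
      exact wd_const_smul _ (hx.differentiableAt two_ne_zero) 1
  rw [P275NA.lp, db, wb_congr e, wb_const_smul _ ((cd_dz (m := 1) (cd_ofReal hu)
    (by norm_num)).differentiableAt one_ne_zero), smul_eq_mul, re_ofReal_mul, P275NA.lp]

/-- the logarithm of the modulus of a holomorphic function is harmonic -/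
theorem lp_log_nsq {a : ℂ → ℂ} (ha : AnalyticAt ℂ a z) (h0 : a z ≠ 0) :
    lp (fun x => Real.log (normSq (a x))) z = 0 := by
  have e : (dz fun x => ((Real.log (normSq (a x)) : ℝ) : ℂ)) =ᶠ[𝓝 z]
      fun x => deriv a x / a x := by
    filter_upwards [ha.eventually_analyticAt, ha.continuousAt.eventually_ne h0] with x h1 h2
    have h3 := h1.differentiableAt.restrictScalars ℝ
    rw [dz, wd_log ((cd_nsq (k := 1) (cd_an h1)).differentiableAt one_ne_zero)
      (normSq_pos.2 h2).ne']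
    simp only [← mul_conj]
    rw [wd_cmul h3 (df_conj h3), wd_conj h3, wb_hol h1.differentiableAt, map_zero, mul_zero,
      add_zero, show wd 1 a x = deriv a x from dz_hol h1.differentiableAt]
    have : conj (a x) ≠ 0 := by simpa using h2
    field_simp
  rw [P275NA.lp, db, wb_congr e, wb_hol (ha.deriv.fun_div ha h0).differentiableAt, zero_re]

theorem int_fd (hf : ContDiff ℝ 1 f) (hc : HasCompactSupport f) (v : ℂ) :
    Integrable (fun z => fderiv ℝ f z v) ∧ ∫ z, fderiv ℝ f z v = 0 := by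
  have h1 : Integrable (fun z => fderiv ℝ f z v) :=
    ((hf.continuous_fderiv one_ne_zero).clm_apply
      continuous_const).integrable_of_hasCompactSupport (hc.fderiv_apply (𝕜 := ℝ) v)
  have := integral_smul_fderiv_eq_neg_fderiv_smul_of_integrable (μ := (volume : Measure ℂ))
    (f := fun _ => (1 : ℝ)) (g := f) (v := v) (by simp) (by simpa using h1)
    (by simpa using hf.continuous.integrable_of_hasCompactSupport hc)
    (by fun_prop) (fun x _ => hf.differentiable one_ne_zero x)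
  exact ⟨h1, by simpa using this⟩

theorem int_csmul [CompleteSpace F] (c : ℂ) (hf : Integrable f) :
    Integrable (fun z => c • f z) ∧ ∫ z, c • f z = c • ∫ z, f z :=
  ⟨((c • ContinuousLinearMap.id ℂ F).restrictScalars ℝ).integrable_comp hf,
    ((c • ContinuousLinearMap.id ℂ F).restrictScalars ℝ).integral_comp_comm hf⟩

/-- Stokes on the plane -/
theorem int_dz [CompleteSpace F] (hf : ContDiff ℝ 1 f) (hc : HasCompactSupport f) :
    Integrable (dz f) ∧ ∫ z, dz f z = 0 := by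
  obtain ⟨a, b⟩ := int_fd hf hc 1
  obtain ⟨c, d⟩ := int_fd hf hc (I • 1)
  obtain ⟨e, g⟩ := int_csmul I c
  obtain ⟨p, q⟩ := int_csmul 2⁻¹ (a.sub e)
  refine ⟨p, q.trans ?_⟩
  simp only [Pi.sub_apply]
  rw [integral_sub a e, g, b, d, smul_zero, sub_zero, smul_zero]

theorem int_db [CompleteSpace F] (hf : ContDiff ℝ 1 f) (hc : HasCompactSupport f) :
    Integrable (db f) ∧ ∫ z, db f z = 0 := by
  obtain ⟨a, b⟩ := int_fd hf hc 1
  obtain ⟨c, d⟩ := int_fd hf hc (I • 1)
  obtain ⟨e, g⟩ := int_csmul I c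
  obtain ⟨p, q⟩ := int_csmul 2⁻¹ (a.add e)
  refine ⟨p, q.trans ?_⟩
  simp only [Pi.add_apply]
  rw [integral_add a e, g, b, d, smul_zero, add_zero, smul_zero]

end plane

namespace At

variable {C : Type} [TopologicalSpace C] {A : At C} {i j k : Fin A.N} {z : ℂ} {x : C}
  {u v : Fin A.N → ℂ → F} {l l' : Fin A.N → Fin A.N → ℂ → ℂ} {m n : WithTop ℕ∞}

/-! ### sections -/

theorem Sec.congr {F : Type} [SMul ℂ F] {u : Fin A.N → ℂ → F} (hu : A.Sec l u)
    (h : ∀ i j, ∀ z ∈ A.O i j, l i j z = l' i j z) : A.Sec l' u :=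
  fun i j z hz => h i j z hz ▸ hu i j z hz

theorem sec_one {F : Type} [MulAction ℂ F] {u : Fin A.N → ℂ → F} :
    A.Sec (fun _ _ _ => 1) u ↔ A.Fn u := by simp only [Sec, Fn, one_smul]

theorem dn_iff : A.Dn u ↔ A.Sec (fun i j z => A.d i j z * conj (A.d i j z)) u := by
  simp only [Dn, Sec, mul_conj, rsmul]

theorem sec_zero : A.Sec l fun _ _ => (0 : F) := fun _ _ _ _ => (smul_zero _).symm

theorem Sec.add (hu : A.Sec l u) (hv : A.Sec l v) : A.Sec l fun i z => u i z + v i z :=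
  fun i j z h => by beta_reduce; rw [hu i j z h, hv i j z h, smul_add]

theorem Sec.neg (hu : A.Sec l u) : A.Sec l fun i z => -u i z :=
  fun i j z h => by beta_reduce; rw [hu i j z h, smul_neg]

theorem Sec.sub (hu : A.Sec l u) (hv : A.Sec l v) : A.Sec l fun i z => u i z - v i z :=
  fun i j z h => by beta_reduce; rw [hu i j z h, hv i j z h, smul_sub]

theorem Sec.sum {ι : Type} (s : Finset ι) {u : ι → Fin A.N → ℂ → F}
    (hu : ∀ a ∈ s, A.Sec l (u a)) : A.Sec l fun i z => ∑ a ∈ s, u a i z := fun i j z h => by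
  beta_reduce
  rw [Finset.smul_sum]
  exact Finset.sum_congr rfl fun a ha => hu a ha i j z h

theorem Sec.lin (hu : A.Sec l u) (L : F →ₗ[ℂ] G) : A.Sec l fun i z => L (u i z) :=
  fun i j z h => by beta_reduce; rw [hu i j z h, map_smul]

theorem Sec.smul {a : Fin A.N → ℂ → ℂ} (ha : A.Sec l a) (hu : A.Sec l' u) :
    A.Sec (fun i j z => l i j z * l' i j z) fun i z => a i z • u i z := fun i j z h => by
  beta_reduce
  rw [hu i j z h, ha i j z h, smul_smul, smul_smul, smul_eq_mul, mul_right_comm]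

theorem Sec.fn_smul {a : Fin A.N → ℂ → ℂ} (hu : A.Sec l u) (ha : A.Fn a) :
    A.Sec l fun i z => a i z • u i z := fun i j z h => by
  beta_reduce; rw [hu i j z h, ha i j z h, smul_comm]

theorem Sec.rsmul {a : Fin A.N → ℂ → ℝ} (hu : A.Sec l u) (ha : A.Fn a) :
    A.Sec l fun i z => a i z • u i z := fun i j z h => by
  beta_reduce; rw [hu i j z h, ha i j z h, P281Z.Hm.rsmul, P281Z.Hm.rsmul, smul_comm]

theorem Sec.bil {v : Fin A.N → ℂ → G} (hu : A.Sec l u) (hv : A.Sec l' v)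
    (B : F →ₗ[ℂ] G →ₗ[ℂ] H) :
    A.Sec (fun i j z => l i j z * l' i j z) fun i z => B (u i z) (v i z) := fun i j z h => by
  beta_reduce
  rw [hu i j z h, hv i j z h, map_smul, map_smul, LinearMap.smul_apply, smul_smul, mul_comm]

theorem Sec.conj {a : Fin A.N → ℂ → ℂ} (ha : A.Sec l a) :
    A.Sec (fun i j z => conj (l i j z)) fun i z => conj (a i z) := fun i j z h => by
  beta_reduce; rw [ha i j z h, smul_eq_mul, map_mul, smul_eq_mul]

/-- the norm of a section of a line bundle is a function -/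
theorem Mt.fn {h : Fin A.N → ℂ → ℝ} {a : Fin A.N → ℂ → ℂ} (H : A.Mt m l h) (ha : A.Sec l a) :
    A.Fn fun i z => h i z * normSq (a i z) := fun i j z hz => by
  beta_reduce; rw [H.tr i j z hz, ha i j z hz, smul_eq_mul, map_mul]; ring

theorem F10.smul {a : Fin A.N → ℂ → ℂ} (ha : A.F10 a) (hu : A.F01 u) :
    A.Dn fun i z => a i z • u i z := dn_iff.2 (Sec.smul ha hu)

theorem F01.smul {a : Fin A.N → ℂ → ℂ} (ha : A.F01 a) (hu : A.F10 u) :
    A.Dn fun i z => a i z • u i z :=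
  dn_iff.2 ((Sec.smul ha hu).congr fun _ _ _ _ => mul_comm _ _)

theorem F10.nsq {a : Fin A.N → ℂ → ℂ} (ha : A.F10 a) : A.Dn fun i z => normSq (a i z) :=
  fun i j z h => by beta_reduce; rw [ha i j z h, smul_eq_mul, map_mul, smul_eq_mul]

/-! ### derivatives -/

theorem Sm.df {F : Type} [NormedAddCommGroup F] [NormedSpace ℝ F] {u : Fin A.N → ℂ → F}
    (hu : A.Sm m u) (hm : m ≠ 0) (h : z ∈ ball (0 : ℂ) A.R) (i : Fin A.N) :
    DifferentiableAt ℝ (u i) z := (hu.at h i).differentiableAt hm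

theorem Sm.dz (hu : A.Sm n u) (h : m + 1 ≤ n) : A.Sm m fun i => dz (u i) :=
  fun i _ hz => (cd_dz (hu.at hz i) h).contDiffWithinAt

theorem Sm.db (hu : A.Sm n u) (h : m + 1 ≤ n) : A.Sm m fun i => db (u i) :=
  fun i _ hz => (cd_db (hu.at hz i) h).contDiffWithinAt

theorem Sm.lp {u : Fin A.N → ℂ → ℝ} (hu : A.Sm n u) (h : m + 1 + 1 ≤ n) :
    A.Sm m fun i => lp (u i) := fun i _ hz => (cd_lp (hu.at hz i) h).contDiffWithinAt

theorem Sm.ofReal {u : Fin A.N → ℂ → ℝ} (hu : A.Sm m u) : A.Sm m fun i z => (u i z : ℂ) :=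
  fun i _ hz => (cd_ofReal (hu.at hz i)).contDiffWithinAt

theorem Sm.csmul {a : Fin A.N → ℂ → ℂ} (ha : A.Sm m a) (hu : A.Sm m u) :
    A.Sm m fun i z => a i z • u i z :=
  fun i _ hz => (cd_smul (ha.at hz i) (hu.at hz i)).contDiffWithinAt

theorem Hl.sm [CompleteSpace F] (hu : A.Hl u) : A.Sm m u :=
  fun i _ hz => (cd_an (hu.an hz i)).contDiffWithinAt

theorem Hl.db (hu : A.Hl u) (h : z ∈ ball (0 : ℂ) A.R) : db (u i) z = 0 :=
  wb_hol ((hu i).differentiableAt (isOpen_ball.mem_nhds h)) 1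

theorem hl_of_db (hu : A.Sm 1 u) (h : ∀ i, ∀ z ∈ ball (0 : ℂ) A.R, db (u i) z = 0) : A.Hl u :=
  fun i z hz => (hol_of_db (hu.df one_ne_zero hz i) (h i z hz)).differentiableWithinAt

theorem Sec.ev {F : Type} [SMul ℂ F] {u : Fin A.N → ℂ → F} (hu : A.Sec l u) (h : z ∈ A.O i j) :
    u i =ᶠ[𝓝 z] fun w => l i j w • u j (A.tr i j w) := eventually_of_mem (O_nhds h) (hu i j)

theorem Fn.ev {F : Type} {u : Fin A.N → ℂ → F} (hu : A.Fn u) (h : z ∈ A.O i j) :
    u i =ᶠ[𝓝 z] fun w => u j (A.tr i j w) := eventually_of_mem (O_nhds h) (hu i j)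

theorem Sec.db_at (hu : A.Sec l u) (h : z ∈ A.O i j) (hl : DifferentiableAt ℂ (l i j) z)
    (hd : DifferentiableAt ℝ (u j) (A.tr i j z)) :
    db (u i) z = (l i j z * conj (A.d i j z)) • db (u j) (A.tr i j z) := by
  rw [db, wb_congr (hu.ev h), wb_smul (hl.restrictScalars ℝ) (hd.fun_comp' z
    ((df_tr h).restrictScalars ℝ)), wb_hol hl, zero_smul, zero_add, mul_smul]
  exact congrArg _ (db_comp hd (df_tr h))

theorem Sec.dz_at (hu : A.Sec (fun i j z => conj (l i j z)) u) (h : z ∈ A.O i j)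
    (hl : DifferentiableAt ℂ (l i j) z) (hd : DifferentiableAt ℝ (u j) (A.tr i j z)) :
    dz (u i) z = (A.d i j z * conj (l i j z)) • dz (u j) (A.tr i j z) := by
  rw [dz, wd_congr (hu.ev h), wd_smul (df_conj (hl.restrictScalars ℝ)) (hd.fun_comp' z
    ((df_tr h).restrictScalars ℝ)), wd_conj (hl.restrictScalars ℝ), wb_hol hl, map_zero,
    zero_smul, zero_add, mul_comm, mul_smul]
  exact congrArg _ (dz_comp hd (df_tr h))

/-- `∂̄` of a section of a holomorphic line bundle -/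
theorem Sec.db (hu : A.Sec l u) (hl : A.Cc l) (hd : A.Sm 1 u) :
    A.Sec (fun i j z => l i j z * conj (A.d i j z)) fun i => db (u i) := fun _ j _ h =>
  hu.db_at h (hl.an h).differentiableAt (hd.df one_ne_zero (tr_ball h) j)

theorem Fn.f10 (hu : A.Fn u) (hd : A.Sm 1 u) : A.F10 fun i => dz (u i) := fun i j z h => by
  exact (wd_congr (hu.ev h) 1).trans (dz_comp (hd.df one_ne_zero (tr_ball h) j) (df_tr h))

theorem Fn.f01 (hu : A.Fn u) (hd : A.Sm 1 u) : A.F01 fun i => db (u i) := fun i j z h => by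
  exact (wb_congr (hu.ev h) 1).trans (db_comp (hd.df one_ne_zero (tr_ball h) j) (df_tr h))

theorem F10.dn (hu : A.F10 u) (hd : A.Sm 1 u) : A.Dn fun i => db (u i) :=
  dn_iff.2 (Sec.db hu A.cc_d hd)

theorem F01.dn (hu : A.F01 u) (hd : A.Sm 1 u) : A.Dn fun i => dz (u i) :=
  dn_iff.2 fun _ j _ h => Sec.dz_at hu h (an_d h).differentiableAt (hd.df one_ne_zero (tr_ball h) j)

theorem lp_tr {a : ℂ → ℝ} (h : z ∈ A.O i j) (ha : ContDiffAt ℝ 2 a (A.tr i j z)) :
    lp (fun w => a (A.tr i j w)) z = normSq (A.d i j z) * lp a (A.tr i j z) := by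
  have e : (dz fun w => (a (A.tr i j w) : ℂ)) =ᶠ[𝓝 z]
      fun w => A.d i j w • dz (fun x => (a x : ℂ)) (A.tr i j w) := by
    filter_upwards [O_nhds h, (an_tr h).continuousAt.eventually ((cd_ofReal ha).eventually
      (by simp))] with w b c
    exact dz_comp (f := fun x => (a x : ℂ)) (c.differentiableAt two_ne_zero) (df_tr b)
  have d := (cd_dz (m := 1) (cd_ofReal ha) (by norm_num)).differentiableAt one_ne_zero
  rw [P275NA.lp, db, wb_congr e, wb_smul ((an_d h).differentiableAt.restrictScalars ℝ)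
    (d.fun_comp' z ((df_tr h).restrictScalars ℝ)), wb_hol (an_d h).differentiableAt, zero_smul, zero_add]
  rw [show wb 1 (fun w => dz (fun x => (a x : ℂ)) (A.tr i j w)) z = _ from db_comp d (df_tr h),
    smul_smul, ← At.d, mul_conj, smul_eq_mul, re_ofReal_mul, P275NA.lp]

theorem Fn.dn_lp {u : Fin A.N → ℂ → ℝ} (hu : A.Fn u) (hd : A.Sm 2 u) :
    A.Dn fun i => lp (u i) := fun i j z h => by
  exact (lp_congr (hu.ev h)).trans (lp_tr h (hd.at (tr_ball h) j))

variable [T2Space C]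

theorem cd_χ_smul {F : Type} [NormedAddCommGroup F] [NormedSpace ℝ F] {m : ℕ∞} {f : ℂ → F}
    (i : Fin A.N) (hf : ContDiffOn ℝ m f (ball 0 A.R)) :
    ContDiff ℝ m (fun z => A.χ i z • f z) ∧ HasCompactSupport fun z => A.χ i z • f z :=
  ⟨cd_of_ball (A := A) (isCompact_closedBall 0 1) A.unit_sub
    (((cd_χ i).of_le (mod_cast le_top)).contDiffOn.smul hf) fun z a => by
      rw [χ_zero (not_le.1 fun b => a (mem_closedBall_zero_iff.2 b)).le, zero_smul],
    (cs_χ i).smul_right⟩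

theorem Sm.φ_smul {F : Type} [NormedAddCommGroup F] [NormedSpace ℝ F] {m : ℕ∞}
    {u : Fin A.N → ℂ → F} (hu : A.Sm m u) (j : Fin A.N) :
    A.Sm m fun i z => A.φ j i z • u i z :=
  fun i => ((sm_φ j i).of_le (mod_cast le_top)).smul (hu i)

/-- Stokes for a first order operator -/
theorem stokes_aux (D : (ℂ → F) → ℂ → F) (P : (Fin A.N → ℂ → F) → Prop)
    (h1 : ∀ {f g z}, f =ᶠ[𝓝 z] g → D f z = D g z) (h2 : ∀ z, D (fun _ => 0) z = 0)
    (h3 : ∀ (f : Fin A.N → ℂ → F) z, (∀ j, DifferentiableAt ℝ (f j) z) →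
      D (fun w => ∑ j, f j w) z = ∑ j, D (f j) z)
    (h4 : ∀ f, ContDiff ℝ 1 f → HasCompactSupport f → Integrable (D f) ∧ ∫ z, D f z = 0)
    (h5 : ∀ u, A.Sm 1 u → A.Ct fun i => D (u i))
    (h6 : ∀ u, P u → A.Sm 1 u → A.Dn fun i => D (u i))
    (hu : ∀ j, P fun i z => A.φ j i z • u i z) (hd : A.Sm 1 u) :
    A.int (fun i => D (u i)) = 0 := by
  have s := fun j => Sm.φ_smul (m := 1) hd j
  rw [int_congr' (v := fun i z => ∑ j, D (fun w => A.φ j i w • u i w) z) fun i z hz => by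
    rw [← h3 _ z fun j => (s j).df one_ne_zero hz i]
    simp only [← Finset.sum_smul, sum_φ, one_smul], int_sum _ fun j _ => (h5 _ (s j)).in]
  refine Finset.sum_eq_zero fun j _ => ?_
  obtain ⟨a, b⟩ := cd_χ_smul (m := 1) j (hd j)
  obtain ⟨c, d⟩ := h4 _ a b
  have e : EqOn (D fun z => A.χ j z • u j z) (D fun z => A.φ j j z • u j z) (ball 0 A.R) :=
    fun z hz => h1 (eventually_of_mem (isOpen_ball.mem_nhds hz) fun w hw => by
      beta_reduce; rw [φ_self hw])
  rw [int_loc (j := j) (h6 _ (hu j) (s j)) (fun i z hz hz' => (h1 ((ev_φ hz hz').mono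
    fun w hw => (congrArg (· • u i w) hw).trans (zero_smul ℝ _))).trans (h2 z))
    (c.integrableOn.congr_fun e isOpen_ball.measurableSet),
    ← setIntegral_congr_fun isOpen_ball.measurableSet e,
    setIntegral_eq_integral_of_forall_compl_eq_zero fun z hz => ?_, d]
  refine (h1 ?_).trans (h2 z)
  filter_upwards [isClosed_closedBall.isOpen_compl.mem_nhds fun a => hz (A.unit_sub a)] with w hw
  rw [χ_zero (not_le.1 fun b => hw (mem_closedBall_zero_iff.2 b)).le, zero_smul]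

variable [CompleteSpace F]

/-- Stokes for `(1,0)`-forms -/
theorem F10.int_db (hu : A.F10 u) (hd : A.Sm 1 u) : A.int (fun i => db (u i)) = 0 :=
  stokes_aux db A.F10 (fun h => wb_congr h 1) (wb_const 0 1)
    (fun _ _ h => wb_sum _ (fun j _ => h j) 1) (fun _ => P275GC.int_db)
    (fun _ h => (h.db (m := 0) (by simp)).ct) (fun _ => F10.dn)
    (fun j => Sec.rsmul hu (fn_φ j)) hd

/-- Stokes for `(0,1)`-forms -/
theorem F01.int_dz (hu : A.F01 u) (hd : A.Sm 1 u) : A.int (fun i => dz (u i)) = 0 :=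
  stokes_aux dz A.F01 (fun h => wd_congr h 1) (wd_const 0 1)
    (fun _ _ h => wd_sum _ (fun j _ => h j) 1) (fun _ => P275GC.int_dz)
    (fun _ h => (h.dz (m := 0) (by simp)).ct) (fun _ => F01.dn)
    (fun j => Sec.rsmul hu (fn_φ j)) hd

theorem Fn.int_db_dz (hu : A.Fn u) (hd : A.Sm 2 u) : A.int (fun i => db (dz (u i))) = 0 :=
  (hu.f10 (hd.of_le one_le_two)).int_db (hd.dz (by norm_num))

/-- the integral of the Laplacian of a function vanishes -/
theorem Fn.int_lp {u : Fin A.N → ℂ → ℝ} (hu : A.Fn u) (hd : A.Sm 2 u) :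
    A.int (fun i => lp (u i)) = 0 := by
  have a := (hu.map ofReal).int_db_dz hd.ofReal
  rw [int_congr' (v := fun i z => (lp (u i) z : ℂ)) (fun i z hz => lp_eq (hd.at hz i)),
    int_ofReal] at a
  exact_mod_cast a

/-- integration by parts; `a` and `u` are sections of `l` and of `K ⊗ l⁻¹` -/
theorem int_parts_db {a : Fin A.N → ℂ → ℂ} (h : A.F10 fun i z => a i z • u i z) (ha : A.Sm 1 a)
    (hu : A.Sm 1 u) :
    A.int (fun i z => db (a i) z • u i z) = -A.int fun i z => a i z • db (u i) z := by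
  have c1 : A.Ct fun i z => db (a i) z • u i z :=
    (Sm.csmul (m := 0) (ha.db (by simp)) (hu.of_le zero_le_one)).ct
  have c2 : A.Ct fun i z => a i z • db (u i) z :=
    (Sm.csmul (m := 0) (ha.of_le zero_le_one) (hu.db (by simp))).ct
  rw [eq_neg_iff_add_eq_zero, ← int_add c1.in c2.in, ← h.int_db (ha.csmul hu)]
  exact int_congr' fun i z hz => (wb_smul (ha.df one_ne_zero hz i) (hu.df one_ne_zero hz i) 1).symm

theorem int_parts_dz {a : Fin A.N → ℂ → ℂ} (h : A.F01 fun i z => a i z • u i z) (ha : A.Sm 1 a)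
    (hu : A.Sm 1 u) :
    A.int (fun i z => dz (a i) z • u i z) = -A.int fun i z => a i z • dz (u i) z := by
  have c1 : A.Ct fun i z => dz (a i) z • u i z :=
    (Sm.csmul (m := 0) (ha.dz (by simp)) (hu.of_le zero_le_one)).ct
  have c2 : A.Ct fun i z => a i z • dz (u i) z :=
    (Sm.csmul (m := 0) (ha.of_le zero_le_one) (hu.dz (by simp))).ct
  rw [eq_neg_iff_add_eq_zero, ← int_add c1.in c2.in, ← h.int_dz (ha.csmul hu)]
  exact int_congr' fun i z hz => (wd_smul (ha.df one_ne_zero hz i) (hu.df one_ne_zero hz i) 1).symm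

/-! ### holomorphic sections on connected curves -/

/-- the identity theorem -/
theorem Hl.eq_zero [PreconnectedSpace C] {T : Fin A.N → Fin A.N → ℂ → F → F} (hu : A.Hl u)
    (hT : ∀ i j, ∀ z ∈ A.O i j, u i z = T i j z (u j (A.tr i j z))) (h0 : ∀ i j z, T i j z 0 = 0)
    (hz : z ∈ ball (0 : ℂ) A.R) (h : ∃ᶠ w in 𝓝[≠] z, u i w = 0) (j : Fin A.N) {w : ℂ}
    (hw : w ∈ ball (0 : ℂ) A.R) : u j w = 0 := by
  have key : ∀ i j, ∀ z ∈ A.O i j, (∀ᶠ w in 𝓝 (A.tr i j z), u j w = 0) → ∀ᶠ w in 𝓝 z, u i w = 0 :=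
    fun i j z a b => by
      filter_upwards [O_nhds a, (an_tr a).continuousAt.eventually b] with w c d
      rw [hT i j w c, d, h0]
  refine (Fn.conn (A := A) (P := fun i z => ∀ᶠ w in 𝓝 z, u i w = 0) (fun i j z a => propext
    ⟨fun b => key j i _ (tr_mem a) (by rwa [tr_inv a]), key i j z a⟩)
    (fun _ _ _ a => a.eventually_nhds) (fun i z a b => ?_) hz
    ((hu.an hz i).frequently_zero_iff_eventually_zero.1 h) j hw).self_of_nhds
  rw [← nhdsNE_sup_pure, frequently_sup] at b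
  exact b.elim (fun c => (hu.an a i).frequently_zero_iff_eventually_zero.1
    (c.mono fun _ d => d.self_of_nhds)) fun c => frequently_pure.1 c

theorem Sec.eq_zero [PreconnectedSpace C] (hs : A.Sec l u) (hu : A.Hl u)
    (hz : z ∈ ball (0 : ℂ) A.R) (h : ∃ᶠ w in 𝓝[≠] z, u i w = 0) (j : Fin A.N) {w : ℂ}
    (hw : w ∈ ball (0 : ℂ) A.R) : u j w = 0 :=
  hu.eq_zero (T := fun i j z y => l i j z • y) hs (fun _ _ _ => smul_zero _) hz h j hw

/-- locally constant functions are constant -/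
theorem Fn.const {F : Type} [PreconnectedSpace C] {u : Fin A.N → ℂ → F} (hu : A.Fn u)
    (h : ∀ i, ∀ z ∈ ball (0 : ℂ) A.R, ∀ᶠ w in 𝓝 z, u i w = u i z) (hz : z ∈ ball (0 : ℂ) A.R)
    (i j : Fin A.N) {w : ℂ} (hw : w ∈ ball (0 : ℂ) A.R) : u j w = u i z :=
  (hu.map (· = u i z)).conn (fun k y a b => (h k y a).mono fun _ c => c.trans b)
    (fun k y a b => by
      obtain ⟨t, c, d⟩ := (b.and_eventually (h k y a)).exists
      exact d.symm.trans c) hz rfl j hw

theorem Fn.hol_const1 [PreconnectedSpace C] {u : Fin A.N → ℂ → ℂ} (hu : A.Fn u) (hh : A.Hl u)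
    (hz : z ∈ ball (0 : ℂ) A.R) (i j : Fin A.N) {w : ℂ} (hw : w ∈ ball (0 : ℂ) A.R) :
    u j w = u i z := by
  have : Nonempty C := ⟨(A.e i).symm z⟩
  obtain ⟨k, y, a, b, -⟩ := (hu.map norm).exists_max fun i => (hh i).continuousOn.norm
  have c := mem_of_le (A := A) a.le
  have d := eventually_eq_of_isLocalMax_norm
    ((hh.an c k).eventually_analyticAt.mono fun _ e => e.differentiableAt) b
  have e : ∀ j, ∀ w ∈ ball (0 : ℂ) A.R, u j w - u k y = 0 := fun j w hw =>
    Sec.eq_zero (u := fun j w => u j w - u k y) (sec_one.2 (hu.map (· - u k y)))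
      (fun i => (hh i).sub_const _) c ((d.mono fun _ e => sub_eq_zero.2 e).filter_mono
        nhdsWithin_le_nhds).frequently j hw
  rw [sub_eq_zero.1 (e j w hw), sub_eq_zero.1 (e i z hz)]

/-- holomorphic functions are constant -/
theorem Fn.hol_const [PreconnectedSpace C] (hu : A.Fn u) (hh : A.Hl u)
    (hz : z ∈ ball (0 : ℂ) A.R) (i j : Fin A.N) {w : ℂ} (hw : w ∈ ball (0 : ℂ) A.R) :
    u j w = u i z := (SeparatingDual.eq_iff_forall_dual_eq (R := ℂ)).2 fun L =>
  (hu.map L).hol_const1 (fun i => L.differentiable.comp_differentiableOn (hh i)) hz i j hw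

end At

end Vale.Agent.P275GC
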