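import Vale.Agent.P275GC.Deg
import Mathlib.Analysis.Calculus.ParametricIntervalIntegral

/-!
# P275, block GC: the line bundle of a point, in families
-/

set_option linter.unusedSectionVars false

open scoped Topology ComplexConjugate ContDiff
open Set Filter Metric MeasureTheory Complex

noncomputable section

namespace Vale.Agent.P275GC

open Vale.Agent.P281Z.Hm Vale.Agent.P275NA

section slope
variable {F : Type} [NormedAddCommGroup F] [NormedSpace ℂ F] [CompleteSpace F] {f : ℂ → F}
  {U : Set ℂ}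

theorem dslope_int {c : ℂ} {r : ℝ} (hf : DifferentiableOn ℂ f (ball c r)) {a b : ℂ}
    (ha : a ∈ ball c r) (hb : b ∈ ball c r) :
    dslope f a b = ∫ t in (0 : ℝ)..1, deriv f (a + t • (b - a)) := by
  by_cases e : b = a
  · simp [e]
  have m : ∀ t ∈ Icc (0 : ℝ) 1, a + t • (b - a) ∈ ball c r := fun t ht =>
    (convex_ball c r).add_smul_sub_mem ha hb ht
  have h := intervalIntegral.integral_unitInterval_deriv_eq_sub (f := f) (f' := deriv f) (z₀ := a)
    (z₁ := b - a) ((hf.deriv isOpen_ball).continuousOn.comp (by fun_prop) m) fun t ht =>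
      (hf.differentiableAt (isOpen_ball.mem_nhds (m t ht))).hasDerivAt
  rw [dslope_of_ne _ e, slope_def_module, ← add_sub_cancel a b, ← h, add_sub_cancel,
    inv_smul_smul₀ (sub_ne_zero.2 e)]

/-- the difference quotient is holomorphic in both variables -/
theorem df_dslope (hU : IsOpen U) (hf : DifferentiableOn ℂ f U) {p : ℂ × ℂ} (h1 : p.1 ∈ U)
    (h2 : p.2 ∈ U) : DifferentiableAt ℂ (fun q : ℂ × ℂ => dslope f q.1 q.2) p := by
  obtain ⟨c, b⟩ := p
  by_cases e : b = c
  swap
  · have a1 := (hf.differentiableAt (hU.mem_nhds h1)).comp (c, b) differentiableAt_fst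
    have a2 := (hf.differentiableAt (hU.mem_nhds h2)).comp (c, b) differentiableAt_snd
    have a3 : DifferentiableAt ℂ (fun q : ℂ × ℂ => (q.2 - q.1)⁻¹) (c, b) :=
      (differentiableAt_snd.sub differentiableAt_fst).inv (sub_ne_zero.2 e)
    refine (a3.smul (a2.sub a1)).congr_of_eventuallyEq ?_
    filter_upwards [(isOpen_ne_fun continuous_snd continuous_fst).mem_nhds e] with q hq
    rw [dslope_of_ne _ hq, slope_def_module]
    rfl
  subst e
  obtain ⟨r, hr, hc⟩ := nhds_basis_closedBall.mem_iff.1 (hU.mem_nhds h1)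
  have d1 := hf.deriv hU
  obtain ⟨M, hM⟩ := (isCompact_closedBall b r).exists_bound_of_continuousOn
    ((d1.deriv hU).continuousOn.mono hc)
  have hb := ball_subset_closedBall.trans hc
  set L : ℝ → ℂ × ℂ →L[ℂ] ℂ := fun t => ContinuousLinearMap.fst ℂ ℂ ℂ +
    (t : ℂ) • (ContinuousLinearMap.snd ℂ ℂ ℂ - ContinuousLinearMap.fst ℂ ℂ ℂ) with hL
  have eL : ∀ (t : ℝ) (q : ℂ × ℂ), L t q = q.1 + t • (q.2 - q.1) := fun t q => by simp [hL]
  have cL : Continuous L := by fun_prop
  obtain ⟨K, hK⟩ := (isCompact_Icc (a := (0 : ℝ)) (b := 1)).exists_bound_of_continuousOn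
    cL.continuousOn
  have m : ∀ q ∈ ball b r ×ˢ ball b r, ∀ t ∈ Icc (0 : ℝ) 1, L t q ∈ ball b r := fun q hq t ht =>
    eL t q ▸ (convex_ball b r).add_smul_sub_mem hq.1 hq.2 ht
  have s : ball b r ×ˢ ball b r ∈ 𝓝 (b, b) :=
    prod_mem_nhds (ball_mem_nhds _ hr) (ball_mem_nhds _ hr)
  have c0 : ∀ q ∈ ball b r ×ˢ ball b r, ContinuousOn (fun t => deriv f (L t q)) (Icc 0 1) :=
    fun q hq => d1.continuousOn.comp (by fun_prop) fun t ht => hb (m q hq t ht)
  have u : ∀ {t : ℝ}, t ∈ uIoc (0 : ℝ) 1 → t ∈ Icc (0 : ℝ) 1 := fun h =>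
    Ioc_subset_Icc_self (by rwa [uIoc_of_le zero_le_one] at h)
  have key := intervalIntegral.hasFDerivAt_integral_of_dominated_of_fderiv_le (μ := volume)
    (a := 0) (b := 1) (F := fun q t => deriv f (L t q)) (bound := fun _ => M * K)
    (F' := fun q t => (ContinuousLinearMap.toSpanSingleton ℂ (deriv (deriv f) (L t q))).comp (L t))
    s (eventually_of_mem s fun q hq => ((c0 q hq).mono fun _ => u).aestronglyMeasurable
      measurableSet_uIoc) ((c0 _ (mem_of_mem_nhds s)).intervalIntegrable_of_Icc zero_le_one)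
    (Continuous.aestronglyMeasurable (by
      simp only [eL, sub_self, smul_zero, add_zero]
      exact continuous_const.clm_comp cL))
    (Eventually.of_forall fun t ht q hq => (ContinuousLinearMap.opNorm_comp_le _ _).trans (by
      rw [ContinuousLinearMap.norm_toSpanSingleton]
      have := hM _ (ball_subset_closedBall (m q hq t (u ht)))
      exact mul_le_mul this (hK t (u ht)) (norm_nonneg _) ((norm_nonneg _).trans this)))
    intervalIntegrable_const (Eventually.of_forall fun t ht q hq =>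
      (d1.differentiableAt (hU.mem_nhds (hb (m q hq t (u ht))))).hasDerivAt.hasFDerivAt.comp q
        (L t).hasFDerivAt)
  refine key.differentiableAt.congr_of_eventuallyEq (eventually_of_mem s fun q hq => ?_)
  simp only [eL]
  exact dslope_int (hf.mono hb) hq.1 hq.2

end slope

namespace At

variable {C : Type} [TopologicalSpace C] {A : At C} {i j k : Fin A.N} {z : ℂ} {x y : C}
  {r : ℝ} {h1 : 1 < r} {h2 : r ≤ A.R}

open Classical in
/-- the canonical section of `O(y)`, for `y` near `x` -/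
def sg (A : At C) (x y : C) (i : Fin A.N) (z : ℂ) : ℂ :=
  if x ∈ (A.e i).source then z - A.e i y else 1

open Classical in
/-- the cocycle of `O(y)`, for `y` near `x` -/
def ox (A : At C) (x y : C) (i j : Fin A.N) (z : ℂ) : ℂ :=
  if x ∈ (A.e i).source ∧ x ∈ (A.e j).source then (dslope (A.tr i j) (A.e i y) z)⁻¹
  else A.sg x y i z / A.sg x y j (A.tr i j z)

/-- `y` is near `x`, for the discs of radius `r` -/
structure Nr (A : At C) (x : C) (r : ℝ) (y : C) : Prop where
  mem : ∀ i, x ∈ (A.e i).source → y ∈ (A.e i).source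
  off : ∀ i, x ∉ (A.e i).source → ∀ z ∈ ball (0 : ℂ) r, (A.e i).symm z ≠ y

theorem nr_self (x : C) (h : r ≤ A.R) : A.Nr x r x :=
  ⟨fun _ a => a, fun _ a _ b c => a (c ▸ map_tgt (ball_subset_ball h b))⟩

theorem Nr.mono {r' : ℝ} (h : A.Nr x r y) (e : r' ≤ r) : A.Nr x r' y :=
  ⟨h.mem, fun i a z b => h.off i a z (ball_subset_ball e b)⟩

theorem nr_ev [T2Space C] (x : C) (h : r < A.R) : ∀ᶠ y in 𝓝 x, A.Nr x r y := by
  have a : ∀ i, ∀ᶠ y in 𝓝 x, (x ∈ (A.e i).source → y ∈ (A.e i).source) ∧
      (x ∉ (A.e i).source → ∀ z ∈ ball (0 : ℂ) r, (A.e i).symm z ≠ y) := fun i => by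
    by_cases b : x ∈ (A.e i).source
    · filter_upwards [(A.e i).open_source.mem_nhds b] with y c using ⟨fun _ => c, fun d => (d b).elim⟩
    · have c := closedBall_subset_ball (x := (0 : ℂ)) h
      filter_upwards [(cpt_img (isCompact_closedBall 0 r) c i).isClosed.isOpen_compl.mem_nhds
        fun ⟨w, d, e⟩ => b (e ▸ map_tgt (c d))] with y d
      exact ⟨fun e => (b e).elim, fun _ z e f => d ⟨z, ball_subset_closedBall e, f⟩⟩
  exact (eventually_all.2 a).mono fun y b => ⟨fun i => (b i).1, fun i => (b i).2⟩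

theorem sg_mem (h : x ∈ (A.e i).source) : A.sg x y i = fun z => z - A.e i y :=
  funext fun _ => if_pos h

theorem sg_not (h : x ∉ (A.e i).source) : A.sg x y i = fun _ => 1 := funext fun _ => if_neg h

theorem an_sg (x y : C) (i : Fin A.N) (z : ℂ) : AnalyticAt ℂ (A.sg x y i) z := by
  by_cases h : x ∈ (A.e i).source
  · rw [sg_mem h]; exact analyticAt_id.sub analyticAt_const
  · rw [sg_not h]; exact analyticAt_const

theorem hl_sg (x y : C) : A.Hl (A.sg x y) :=
  fun i z _ => (an_sg x y i z).differentiableAt.differentiableWithinAt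

theorem Nr.src (h : A.Nr x r y) (hz : z ∈ ball (0 : ℂ) r) (e : (A.e i).symm z = y) :
    x ∈ (A.e i).source := by_contra fun a => h.off i a z hz e

theorem Nr.sg_eq_zero (h : A.Nr x r y) (h2 : r ≤ A.R) (hz : z ∈ ball (0 : ℂ) r) :
    A.sg x y i z = 0 ↔ (A.e i).symm z = y := by
  by_cases a : x ∈ (A.e i).source
  · rw [sg_mem a, sub_eq_zero]
    exact ⟨fun e => by rw [e, (A.e i).left_inv (h.mem i a)],
      fun e => by rw [← e, rinv (ball_subset_ball h2 hz)]⟩
  · rw [sg_not a]
    exact ⟨fun e => (one_ne_zero e).elim, fun e => (a (h.src hz e)).elim⟩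

theorem Nr.den (h : A.Nr x r y) (hz : z ∈ (A.res r h1 h2).O i j)
    (a : ¬(x ∈ (A.e i).source ∧ x ∈ (A.e j).source)) : A.sg x y j (A.tr i j z) ≠ 0 := fun e => by
  obtain ⟨b, c, d⟩ := res_O.1 hz
  have f := (h.sg_eq_zero h2 d).1 e
  exact a ⟨h.src c (symm_tr b ▸ f), h.src d f⟩

theorem Nr.sec (h : A.Nr x r y) : (A.res r h1 h2).Sec (A.ox x y) (A.sg x y) :=
    fun (i j : Fin A.N) z hz => by
  show A.sg x y i z = A.ox x y i j z * A.sg x y j (A.tr i j z)
  by_cases a : x ∈ (A.e i).source ∧ x ∈ (A.e j).source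
  · have b := h.mem i a.1
    rw [ox, if_pos a, sg_mem a.1, sg_mem a.2]
    beta_reduce
    rw [← tr_e (j := j) b, ← sub_smul_dslope, smul_eq_mul, mul_comm, mul_inv_cancel_right₀
      (dslope_ne (mem_O b (h.mem j a.2)) (res_O.1 hz).1)]
  · rw [ox, if_neg a, div_mul_cancel₀ _ (h.den hz a)]

theorem Nr.ox_at (h : A.Nr x r y) (hz : z ∈ (A.res r h1 h2).O i j) (e : (A.e i).symm z = y) :
    A.ox x y i j z = (A.d i j z)⁻¹ := by
  obtain ⟨b, c, d⟩ := res_O.1 hz
  rw [ox, if_pos ⟨h.src c e, h.src d ((symm_tr b).trans e)⟩, ← e, rinv b.1, dslope_same, At.d]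

theorem Nr.an_ox (h : A.Nr x r y) (hz : z ∈ (A.res r h1 h2).O i j) :
    AnalyticAt ℂ (A.ox x y i j) z := by
  have b := (res_O.1 hz).1
  by_cases a : x ∈ (A.e i).source ∧ x ∈ (A.e j).source
  · have c := mem_O (h.mem i a.1) (h.mem j a.2)
    exact ((an_dslope c b).inv (dslope_ne c b)).congr (Eventually.of_forall fun w => (if_pos a).symm)
  · exact ((an_sg x y i z).div ((an_sg x y j _).comp (an_tr b)) (h.den hz a)).congr
      (Eventually.of_forall fun w => (if_neg a).symm)

/-- the cocycle of `O(y)` -/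
theorem Nr.cc (h : A.Nr x r y) : (A.res r h1 h2).Cc (A.ox x y) where
  hol _ _ _ hz := (h.an_ox hz).differentiableAt.differentiableWithinAt
  one := fun (i : Fin A.N) z hz => by
    have a : z ∈ (A.res r h1 h2).O i i := O_self (A := A.res r h1 h2) hz
    have b := ball_subset_ball h2 hz
    by_cases e : (A.e i).symm z = y
    · rw [h.ox_at a e, A.cc_d.one i z b, inv_one]
    · have c : A.sg x y i z = A.ox x y i i z * A.sg x y i (A.tr i i z) := h.sec i i z a
      rw [tr_self b] at c
      exact (mul_eq_right₀ fun f => e ((h.sg_eq_zero h2 hz).1 f)).1 c.symm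
  mul := fun (i j k : Fin A.N) z a b => by
    have c : A.tr i j z ∈ (A.res r h1 h2).O j k := tr_O (A := A.res r h1 h2) a b
    obtain ⟨a1, -, -⟩ := res_O.1 a
    obtain ⟨b1, -, b3⟩ := res_O.1 b
    show A.ox x y i k z = A.ox x y i j z * A.ox x y j k (A.tr i j z)
    by_cases e : (A.e i).symm z = y
    · rw [h.ox_at a e, h.ox_at b e, h.ox_at c ((symm_tr a1).trans e), A.cc_d.mul i j k z a1 b1,
        mul_inv]
    · have s1 : A.sg x y i z = A.ox x y i j z * A.sg x y j (A.tr i j z) := h.sec i j z a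
      have s2 : A.sg x y i z = A.ox x y i k z * A.sg x y k (A.tr i k z) := h.sec i k z b
      have s3 : A.sg x y j (A.tr i j z) = A.ox x y j k (A.tr i j z) *
        A.sg x y k (A.tr j k (A.tr i j z)) := h.sec j k _ c
      rw [s2, s3, tr_tr a1, ← mul_assoc] at s1
      exact mul_right_cancel₀ (fun f => e ((symm_tr b1).symm.trans
        ((h.sg_eq_zero h2 b3).1 f))) s1

open Classical in
theorem Nr.mero (h : A.Nr x r y) :
    (A.res r h1 h2).Mero (A.ox x y) (A.sg x y) fun t => if t = y then 1 else 0 where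
  mer := fun (i : Fin A.N) z _ => (an_sg x y i z).meromorphicAt
  ord := fun (i : Fin A.N) z hz => by
    show _ = (((if (A.e i).symm z = y then 1 else 0 : ℤ)) : WithTop ℤ)
    by_cases e : (A.e i).symm z = y
    · rw [if_pos e, sg_mem (h.src hz e), ← e, rinv (ball_subset_ball h2 hz)]
      exact meromorphicOrderAt_id_sub_const
    · rw [if_neg e, (an_sg x y i z).meromorphicOrderAt_eq, (an_sg x y i z).analyticOrderAt_eq_zero.2
        fun f => e ((h.sg_eq_zero h2 hz).1 f)]
      rfl
  tr _ _ _ hz := nhdsWithin_le_nhds (h.sec.ev hz)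

theorem Nr.deg [T2Space C] (h : A.Nr x r y) (h1 : 1 < r) (h2 : r ≤ A.R) : A.deg (A.ox x y) = 1 := by
  classical
  rw [← res_deg (h1 := h1) (h2 := h2), h.mero.deg h.cc, finsum_eq_single _ y fun t a => if_neg a]
  simp

/-! ### the bundle of a fixed point -/

theorem res_self : z ∈ (A.res A.R A.hR le_rfl).O i j ↔ z ∈ A.O i j :=
  res_O.trans ⟨fun h => h.1, fun h => ⟨h, h.1, tr_ball h⟩⟩

theorem cc_ox (A : At C) (x : C) : A.Cc (A.ox x x) :=
  have h := (nr_self x le_rfl).cc (A := A) (h1 := A.hR) (h2 := le_rfl)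
  ⟨fun i j => (h.hol i j).mono fun _ a => res_self.2 a, h.one,
    fun i j k z a b => h.mul i j k z (res_self.2 a) (res_self.2 b)⟩

theorem sec_sg (A : At C) (x : C) : A.Sec (A.ox x x) (A.sg x x) := fun i j z a =>
  (nr_self x le_rfl).sec (h1 := A.hR) (h2 := le_rfl) i j z (res_self.2 a)

theorem sg_eq_zero (hz : z ∈ ball (0 : ℂ) A.R) : A.sg x x i z = 0 ↔ (A.e i).symm z = x :=
  (nr_self x le_rfl).sg_eq_zero le_rfl hz

open Classical in
theorem mero_sg (A : At C) (x : C) :
    A.Mero (A.ox x x) (A.sg x x) fun t => if t = x then 1 else 0 :=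
  have h := (nr_self x le_rfl).mero (A := A) (h1 := A.hR) (h2 := le_rfl)
  ⟨h.mer, h.ord, fun i j z a => h.tr i j z (res_self.2 a)⟩

theorem deg_ox [T2Space C] (A : At C) (x : C) : A.deg (A.ox x x) = 1 :=
  (nr_self x le_rfl).deg A.hR le_rfl

/-! ### dependence on the point -/

section fam
variable {T : Type} {Y : T → C} {t : T}

theorem cont_sg [TopologicalSpace T] (hY : ContinuousAt Y t)
    (h : x ∈ (A.e i).source → Y t ∈ (A.e i).source) (z : ℂ) :
    ContinuousAt (fun p : T × ℂ => A.sg x (Y p.1) i p.2) (t, z) := by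
  by_cases a : x ∈ (A.e i).source
  · simp only [sg_mem a]
    exact continuousAt_snd.sub (ContinuousAt.comp (f := fun p : T × ℂ => Y p.1)
      ((A.e i).continuousAt (h a)) (hY.comp_of_eq continuousAt_fst rfl))
  · simp only [sg_not a]
    exact continuousAt_const

theorem cont_ox [TopologicalSpace T] (hY : ContinuousAt Y t) (h : A.Nr x r (Y t))
    (hz : z ∈ (A.res r h1 h2).O i j) :
    ContinuousAt (fun p : T × ℂ => A.ox x (Y p.1) i j p.2) (t, z) := by
  have b := (res_O.1 hz).1
  by_cases a : x ∈ (A.e i).source ∧ x ∈ (A.e j).source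
  · have c := mem_O (h.mem i a.1) (h.mem j a.2)
    simp only [ox, if_pos a]
    have d : ContinuousAt (fun p : T × ℂ => dslope (A.tr i j) (A.e i (Y p.1)) p.2) (t, z) :=
      ContinuousAt.comp (f := fun p : T × ℂ => (A.e i (Y p.1), p.2)) (x := (t, z))
        (df_dslope (O_open i j) (A.hol i j) (p := (_, _)) c b).continuousAt
        ((ContinuousAt.comp (f := fun p : T × ℂ => Y p.1) (x := (t, z))
          ((A.e i).continuousAt (h.mem i a.1))
          (hY.comp_of_eq continuousAt_fst rfl)).prodMk continuousAt_snd)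
    exact d.inv₀ (dslope_ne c b)
  · simp only [ox, if_neg a]
    have d : ContinuousAt (fun p : T × ℂ => A.sg x (Y p.1) j (A.tr i j p.2)) (t, z) :=
      ContinuousAt.comp (f := fun p : T × ℂ => (p.1, A.tr i j p.2)) (x := (t, z))
        (cont_sg hY (h.mem j) _) (continuousAt_fst.prodMk
          ((an_tr b).continuousAt.comp_of_eq continuousAt_snd rfl))
    exact (cont_sg hY (h.mem i) z).div d (h.den hz a)

variable [NormedAddCommGroup T] [NormedSpace ℂ T]

theorem df_sg (h : x ∈ (A.e i).source → DifferentiableAt ℂ (fun s => A.e i (Y s)) t) (z : ℂ) :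
    DifferentiableAt ℂ (fun p : T × ℂ => A.sg x (Y p.1) i p.2) (t, z) := by
  by_cases a : x ∈ (A.e i).source
  · simp only [sg_mem a]
    exact differentiableAt_snd.sub (DifferentiableAt.comp (f := fun p : T × ℂ => p.1) (t, z) (h a)
      differentiableAt_fst)
  · simp only [sg_not a]
    exact differentiableAt_const _

theorem df_ox (hY : ∀ i, x ∈ (A.e i).source → DifferentiableAt ℂ (fun s => A.e i (Y s)) t)
    (h : A.Nr x r (Y t)) (hz : z ∈ (A.res r h1 h2).O i j) :
    DifferentiableAt ℂ (fun p : T × ℂ => A.ox x (Y p.1) i j p.2) (t, z) := by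
  have b := (res_O.1 hz).1
  by_cases a : x ∈ (A.e i).source ∧ x ∈ (A.e j).source
  · have c := mem_O (h.mem i a.1) (h.mem j a.2)
    simp only [ox, if_pos a]
    exact (DifferentiableAt.comp (f := fun p : T × ℂ => (A.e i (Y p.1), p.2)) (t, z)
      (df_dslope (O_open i j) (A.hol i j) (p := (_, _)) c b)
      ((DifferentiableAt.comp (f := fun p : T × ℂ => p.1) (t, z) (hY i a.1)
        differentiableAt_fst).prodMk differentiableAt_snd)).inv (dslope_ne c b)
  · simp only [ox, if_neg a]
    have d : DifferentiableAt ℂ (fun p : T × ℂ => A.sg x (Y p.1) j (A.tr i j p.2)) (t, z) :=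
      DifferentiableAt.comp (f := fun p : T × ℂ => (p.1, A.tr i j p.2)) (t, z) (df_sg (hY j) _)
        (differentiableAt_fst.prodMk (DifferentiableAt.comp (f := fun p : T × ℂ => p.2) (t, z)
          (df_tr b) differentiableAt_snd))
    simp only [div_eq_mul_inv]
    exact (df_sg (hY i) z).mul (d.inv (h.den hz a))

end fam

end At

end Vale.Agent.P275GC
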