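import Vale.Agent.P275GC.St
import Vale.Agent.P275CT.CT
import Mathlib.Analysis.Complex.RemovableSingularity

/-!
# P275, block GC: the formula of Poincaré and Lelong
-/

set_option linter.unusedSectionVars false

open scoped Topology ComplexConjugate ContDiff
open Set Filter Metric MeasureTheory Complex

noncomputable section

namespace Vale.Agent.P275GC

open Vale.Agent.P281Z.Hm Vale.Agent.P275NA

theorem two_le : (2 : WithTop ℕ∞) ≤ ∞ := WithTop.coe_le_coe.2 le_top

theorem cd_log_nsq {a : ℂ → ℂ} {z : ℂ} {k : WithTop ℕ∞} (ha : AnalyticAt ℂ a z) (h0 : a z ≠ 0) :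
    ContDiffAt ℝ k (fun x => Real.log (normSq (a x))) z :=
  (cd_nsq (cd_an ha)).log (normSq_pos.2 h0).ne'

theorem dz_log_nsq {a : ℂ → ℂ} {z : ℂ} (ha : AnalyticAt ℂ a z) (h0 : a z ≠ 0) :
    dz (fun x => ((Real.log (normSq (a x)) : ℝ) : ℂ)) z = deriv a z / a z := by
  have h3 := ha.differentiableAt.restrictScalars ℝ
  rw [dz, wd_log ((cd_nsq (k := 1) (cd_an ha)).differentiableAt one_ne_zero) (normSq_pos.2 h0).ne']
  simp only [← mul_conj]
  rw [wd_cmul h3 (df_conj h3), wd_conj h3, wb_hol ha.differentiableAt, map_zero, mul_zero,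
    add_zero, show wd 1 a z = deriv a z from dz_hol ha.differentiableAt]
  have : conj (a z) ≠ 0 := by simpa using h0
  field_simp

theorem lp_sum {ι : Type} (s : Finset ι) {u : ι → ℂ → ℝ} {z : ℂ}
    (hu : ∀ a ∈ s, ContDiffAt ℝ 2 (u a) z) :
    lp (fun x => ∑ a ∈ s, u a x) z = ∑ a ∈ s, lp (u a) z := by
  classical
  induction s using Finset.induction_on with
  | empty => simpa using lp_const 0 z
  | insert a s ha ih =>
    have h := fun b hb => hu b (Finset.mem_insert_of_mem hb)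
    simp only [Finset.sum_insert ha]
    rw [lp_add (hu a (Finset.mem_insert_self _ _)) (ContDiffAt.sum h), ih h]

/-- a cut off fundamental solution -/
structure Gr (c : ℂ) (K : Set ℂ) (g lam : ℂ → ℝ) : Prop where
  cpt : IsCompact K
  g0 : ∀ w, w ∉ K → g w = 0
  cd : ∀ w, w ≠ c → ContDiffAt ℝ ∞ g w
  near : g =ᶠ[𝓝 c] fun w => Real.log (normSq (w - c))
  cl : ContDiff ℝ ∞ lam
  l0 : ∀ w, w ∉ K → lam w = 0
  lc : lam c = 0
  lp : ∀ w, w ≠ c → lam w = lp g w
  int : ∫ w, lam w = -Real.pi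

theorem exists_gr (c : ℂ) {U : Set ℂ} (hU : U ∈ 𝓝 c) : ∃ K g lam, K ⊆ U ∧ Gr c K g lam := by
  obtain ⟨r, hr, hrU⟩ := nhds_basis_closedBall.mem_iff.1 hU
  let κ : ContDiffBump c := ⟨r / 2, r, half_pos hr, half_lt_self hr⟩
  set L : ℂ → ℝ := fun w => Real.log (normSq (w - c)) with hL
  have an : ∀ w, AnalyticAt ℂ (fun w => w - c) w := fun w => analyticAt_id.sub analyticAt_const
  have cL : ∀ w, w ≠ c → ContDiffAt ℝ ∞ L w := fun w h => cd_log_nsq (an w) (sub_ne_zero.2 h)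
  have k0 : ∀ w, w ∉ closedBall c r → ∀ᶠ x in 𝓝 w, κ x = 0 := fun w h =>
    eventually_of_mem (isClosed_closedBall.isOpen_compl.mem_nhds h) fun x hx =>
      κ.zero_of_le_dist (not_le.1 fun a => hx (mem_closedBall.2 a)).le
  have k1 : ∀ᶠ w in 𝓝 c, ∀ᶠ x in 𝓝 w, κ x = 1 := κ.eventuallyEq_one.eventually_nhds
  have cg : ∀ w, w ≠ c → ContDiffAt ℝ ∞ (fun w => κ w * L w) w := fun w h =>
    κ.contDiffAt.mul (cL w h)
  set lam : ℂ → ℝ := ({c}ᶜ : Set ℂ).indicator (lp fun w => κ w * L w) with hlam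
  have l1 : ∀ w, w ≠ c → lam w = lp (fun w => κ w * L w) w := fun w h => indicator_of_mem h _
  have l2 : lam c = 0 := indicator_of_notMem (by simp) _
  have l3 : ∀ᶠ w in 𝓝 c, lam w = 0 := k1.mono fun w h => by
    by_cases e : w = c
    · rw [e, l2]
    · rw [l1 w e, lp_congr (v := L) (h.mono fun x a => by beta_reduce; rw [a, one_mul])]
      exact lp_log_nsq (an w) (sub_ne_zero.2 e)
  have l4 : ∀ w, w ∉ closedBall c r → lam w = 0 := fun w h => by
    rw [l1 w fun e => h (e ▸ mem_closedBall_self hr.le), lp_congr (v := fun _ => 0)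
      ((k0 w h).mono fun x a => by beta_reduce; rw [a, zero_mul]), lp_const]
  have l5 : ContDiff ℝ ∞ lam := contDiff_iff_contDiffAt.2 fun w => by
    by_cases e : w = c
    · exact contDiffAt_const.congr_of_eventuallyEq (e ▸ l3)
    · exact (cd_lp (cg w e) (by simp)).congr_of_eventuallyEq
        (eventually_of_mem (isOpen_ne.mem_nhds e) l1)
  refine ⟨closedBall c r, fun w => κ w * L w, lam, hrU, isCompact_closedBall _ _, fun w h => by
    rw [(k0 w h).self_of_nhds, zero_mul], cg, k1.mono fun w h => by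
      beta_reduce; rw [h.self_of_nhds, one_mul], l5, l4, l2, l1, ?_⟩
  set k : ℂ → ℂ := fun w => (κ w : ℂ) with hk
  have ck : ∀ w, ContDiffAt ℝ ∞ k w := fun w => cd_ofReal κ.contDiffAt
  have sk : HasCompactSupport k := κ.hasCompactSupport.comp_left ofReal_zero
  set G : ℂ → ℂ := fun w => dz k w * (L w : ℂ) with hG
  have G1 : ∀ᶠ w in 𝓝 c, G w = 0 := k1.mono fun w h => by
    rw [hG]
    beta_reduce
    rw [dz, wd_congr (g := fun _ => 1) (h.mono fun x a => by simp [hk, a]), wd_const, zero_mul]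
  have G2 : ContDiff ℝ 1 G := contDiff_iff_contDiffAt.2 fun w => by
    by_cases e : w = c
    · exact contDiffAt_const.congr_of_eventuallyEq (e ▸ G1)
    · exact (cd_dz (ck w) two_le).mul ((cd_ofReal (cL w e)).of_le (by simp))
  have G3 : HasCompactSupport G := HasCompactSupport.intro (isCompact_closedBall c r) fun w h => by
    rw [hG]
    beta_reduce
    rw [dz, wd_congr (g := fun _ => 0) ((k0 w h).mono fun x a => by simp [hk, a]), wd_const,
      zero_mul]
  have key : ∀ w, w ≠ c → (lam w : ℂ) - db G w = (w - c)⁻¹ • db k w := fun w h => by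
    have e : (dz fun x => ((κ x * L x : ℝ) : ℂ)) =ᶠ[𝓝 w] fun x => G x + k x * (x - c)⁻¹ := by
      filter_upwards [isOpen_ne.mem_nhds h] with x hx
      simp only [ofReal_mul]
      rw [dz, wd_cmul ((ck x).differentiableAt (by simp))
        ((cd_ofReal (cL x hx)).differentiableAt (by simp)),
        show wd 1 (fun x => (L x : ℂ)) x = _ from dz_log_nsq (an x) (sub_ne_zero.2 hx)]
      simp [hG, hk]
    have a1 : DifferentiableAt ℂ (fun x => (x - c)⁻¹) w :=
      ((an w).inv (sub_ne_zero.2 h)).differentiableAt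
    have a2 := (ck w).differentiableAt (by simp)
    rw [l1 w h, ← lp_eq ((cg w h).of_le two_le), db, wb_congr e, wb_add
      (G2.differentiable one_ne_zero w) (a2.fun_mul (a1.restrictScalars ℝ)),
      wb_cmul (b := fun x => (x - c)⁻¹) a2 (a1.restrictScalars ℝ),
      wb_hol (f := fun x => (x - c)⁻¹) a1, smul_eq_mul]
    ring
  have p := P275CT.pomp0 (g := k) (contDiff_iff_contDiffAt.2 fun w => (ck w).of_le (by simp)) sk c
  obtain ⟨i1, i2⟩ := int_db G2 G3
  have i3 : Integrable fun w => (lam w : ℂ) := (l5.continuous.integrable_of_hasCompactSupport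
    (HasCompactSupport.intro (isCompact_closedBall c r) l4)).ofReal
  rw [← integral_sub_right_eq_self _ c, ← integral_congr_ae (f := fun w => (lam w : ℂ) - db G w)
    ((Measure.ae_ne volume c).mono fun w h => by simp only [key w h, add_sub_cancel]),
    integral_sub i3 i1, i2, sub_zero, integral_complex_ofReal, hk] at p
  simp only [κ.eventuallyEq_one.self_of_nhds, Pi.one_apply, ofReal_one, smul_eq_mul, mul_one] at p
  exact_mod_cast p

namespace At

variable {C : Type} [TopologicalSpace C] {A : At C} {i j k : Fin A.N} {z : ℂ} {x : C}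

theorem tends_tr (h : z ∈ A.O i j) : Tendsto (A.tr i j) (𝓝[≠] z) (𝓝[≠] (A.tr i j z)) :=
  tendsto_nhdsWithin_iff.2 ⟨(an_tr h).continuousAt.tendsto.mono_left nhdsWithin_le_nhds, by
    filter_upwards [self_mem_nhdsWithin, nhdsWithin_le_nhds (O_nhds h)] with w a b
    exact fun e => a (injOn_tr i j b h e)⟩

theorem an_dslope {c : ℂ} (hc : c ∈ A.O i j) (h : z ∈ A.O i j) :
    AnalyticAt ℂ (dslope (A.tr i j) c) z :=
  ((differentiableOn_dslope (O_nhds hc)).2 (A.hol i j)).analyticAt (O_nhds h)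

theorem dslope_ne {c : ℂ} (hc : c ∈ A.O i j) (h : z ∈ A.O i j) : dslope (A.tr i j) c z ≠ 0 := by
  by_cases e : z = c
  · rw [e, dslope_same]; exact d_ne hc
  · intro a
    have := sub_smul_dslope (A.tr i j) c z
    rw [a, smul_zero, eq_comm, sub_eq_zero] at this
    exact e (injOn_tr i j h hc this)

/-- removal of the singularities of a function -/
theorem exists_reg {F : Type} [TopologicalSpace F] [T2Space F] [Nonempty F] {f : C → F}
    (h : ∀ i, ∀ z ∈ ball (0 : ℂ) A.R, ∃ V : ℂ → F, (∀ᶠ w in 𝓝 z, ContinuousAt V w) ∧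
      ∀ᶠ w in 𝓝[≠] z, f ((A.e i).symm w) = V w) :
    ∃ u : Fin A.N → ℂ → F, A.Fn u ∧ ∀ i z (V : ℂ → F), (∀ᶠ w in 𝓝 z, ContinuousAt V w) →
      (∀ᶠ w in 𝓝[≠] z, f ((A.e i).symm w) = V w) → u i =ᶠ[𝓝 z] V := by
  have a : ∀ i z (V : ℂ → F), ContinuousAt V z → (∀ᶠ w in 𝓝[≠] z, f ((A.e i).symm w) = V w) →
      limUnder (𝓝[≠] z) (fun w => f ((A.e i).symm w)) = V z := fun i z V h1 h2 =>
    ((h1.tendsto.mono_left nhdsWithin_le_nhds).congr' (EventuallyEq.symm h2)).limUnder_eq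
  refine ⟨fun i z => limUnder (𝓝[≠] z) fun w => f ((A.e i).symm w), fun i j z hz => ?_,
    fun i z V h1 h2 => ?_⟩
  · obtain ⟨V, h1, h2⟩ := h j _ (tr_ball hz)
    beta_reduce
    rw [a j _ V h1.self_of_nhds h2]
    refine a i z (fun w => V (A.tr i j w)) (h1.self_of_nhds.comp (an_tr hz).continuousAt) ?_
    filter_upwards [(tends_tr hz).eventually h2, nhdsWithin_le_nhds (O_nhds hz)] with w b c
    rw [← b, symm_tr c]
  · filter_upwards [h1, (eventually_nhdsWithin_iff.1 h2).eventually_nhds] with w b c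
    by_cases e : w = z
    · rw [e]; exact a i z V h1.self_of_nhds h2
    · refine a i w V b (nhdsWithin_le_nhds ?_)
      filter_upwards [c, isOpen_ne.mem_nhds e] with t d d' using d d'

variable [T2Space C]

theorem int_reg {f : C → ℝ} {γ : Fin A.N → ℂ → ℝ}
    (h : ∀ i, ∀ z ∈ ball (0 : ℂ) A.R, ∃ V : ℂ → ℝ, ContDiffAt ℝ 2 V z ∧ lp V z = γ i z ∧
      ∀ᶠ w in 𝓝[≠] z, f ((A.e i).symm w) = V w) : A.Ct γ ∧ A.Dn γ ∧ A.int γ = 0 := by
  have c : ∀ {V : ℂ → ℝ} {z}, ContDiffAt ℝ 2 V z → ∀ᶠ w in 𝓝 z, ContinuousAt V w := fun a =>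
    (a.eventually (by simp)).mono fun _ b => b.continuousAt
  obtain ⟨u, h1, h2⟩ := exists_reg (A := A) (f := f) fun i z hz => (h i z hz).imp fun _ a =>
    ⟨c a.1, a.2.2⟩
  have s : A.Sm 2 u := fun i z hz => by
    obtain ⟨V, a, -, b⟩ := h i z hz
    exact (a.congr_of_eventuallyEq (h2 i z V (c a) b)).contDiffWithinAt
  have e : ∀ i, ∀ z ∈ ball (0 : ℂ) A.R, lp (u i) z = γ i z := fun i z hz => by
    obtain ⟨V, a, d, b⟩ := h i z hz
    rw [lp_congr (h2 i z V (c a) b), d]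
  refine ⟨fun i => ((s.lp (m := 0) (by norm_num)).ct i).congr fun z hz => (e i z hz).symm,
    fun i j z hz => ?_, by rw [← int_congr' e, h1.int_lp s]⟩
  rw [← e i z hz.1, ← e j _ (tr_ball hz)]
  exact h1.dn_lp s i j z hz

theorem sm_dn {F : Type} [NormedAddCommGroup F] [NormedSpace ℝ F] {m : ℕ∞} {f : ℂ → F}
    {K : Set ℂ} (hK : IsCompact K) (hR : K ⊆ ball 0 A.R) (hf : ContDiffOn ℝ m f (ball 0 A.R))
    (h0 : ∀ z ∈ ball (0 : ℂ) A.R, z ∉ K → f z = 0) (j : Fin A.N) : A.Sm m (A.dn j f) := by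
  refine fun i z h => ContDiffAt.contDiffWithinAt ?_
  by_cases h' : z ∈ A.O i j
  · exact (cd_nsq (cd_an (an_d h'))).smul ((sm_ext hK hR hf h0 j).at h i)
  · exact contDiffAt_const.congr_of_eventuallyEq ((ev_ext hK hR h0 h h').mono fun w a =>
      (congrArg (normSq (A.d i j w) • ·) a).trans (smul_zero _))

open Classical in
/-- a function with a logarithmic pole at `x` -/
theorem exists_green (A : At C) (x : C) : ∃ (G : C → ℝ) (Λ : Fin A.N → ℂ → ℝ), A.Sm ∞ Λ ∧
    A.Dn Λ ∧ A.int Λ = -Real.pi ∧ ∀ i, ∀ z ∈ ball (0 : ℂ) A.R, ∃ U : ℂ → ℝ, ContDiffAt ℝ ∞ U z ∧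
      lp U z = Λ i z ∧ ∀ᶠ w in 𝓝[≠] z, G ((A.e i).symm w) =
        U w + if (A.e i).symm z = x then Real.log (normSq (w - z)) else 0 := by
  obtain ⟨j, hj, -⟩ := A.cov x
  obtain ⟨K, g, lam, hK, H⟩ := exists_gr (A.e j x) (isOpen_ball.mem_nhds (map_src hj))
  refine ⟨A.ext j g, A.dn j lam, sm_dn (m := ⊤) H.cpt hK H.cl.contDiffOn (fun z _ => H.l0 z) j,
    dn_dn lam, ?_, fun i z hz => ?_⟩
  · rw [int_dn (H.cl.continuous.integrable_of_hasCompactSupport (HasCompactSupport.intro H.cpt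
      H.l0)).integrableOn, setIntegral_eq_integral_of_forall_compl_eq_zero fun z a =>
        H.l0 z fun b => a (hK b), H.int]
  by_cases h : z ∈ A.O i j
  · by_cases e : A.tr i j z = A.e j x
    · have e' : (A.e i).symm z = x := by rw [← symm_tr h, e, (A.e j).left_inv hj]
      refine ⟨fun w => Real.log (normSq (dslope (A.tr i j) z w)), cd_log_nsq (an_dslope h h)
        (dslope_ne h h), by rw [lp_log_nsq (an_dslope h h) (dslope_ne h h), dn_tr _ h, e, H.lc,
          smul_zero], ?_⟩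
      filter_upwards [self_mem_nhdsWithin, nhdsWithin_le_nhds (O_nhds h), nhdsWithin_le_nhds
        ((an_tr h).continuousAt.eventually (e ▸ H.near))] with w a b c
      rw [if_pos e', ext_tr b, c, ← sub_smul_dslope, smul_eq_mul, map_mul, Real.log_mul
        (normSq_pos.2 (sub_ne_zero.2 a)).ne' (normSq_pos.2 (dslope_ne h b)).ne', add_comm]
    · have e' : (A.e i).symm z ≠ x := fun a => e (by rw [tr, a])
      refine ⟨fun w => g (A.tr i j w), (H.cd _ e).comp z (cd_an (an_tr h)), by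
        rw [lp_tr h ((H.cd _ e).of_le two_le), dn_tr _ h, H.lp _ e, smul_eq_mul], ?_⟩
      filter_upwards [nhdsWithin_le_nhds (O_nhds h)] with w b
      rw [if_neg e', ext_tr b, add_zero]
  · have e' : (A.e i).symm z ≠ x := fun a => h ⟨hz, by rw [mem_preimage, a]; exact hj⟩
    refine ⟨fun _ => 0, contDiffAt_const, by rw [lp_const, dn_not _ hz h], ?_⟩
    filter_upwards [nhdsWithin_le_nhds (ev_ext H.cpt hK (fun z _ => H.g0 z) hz h)] with w b
    rw [if_neg e', b, add_zero]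

/-- Poincaré-Lelong -/
theorem pl' {β : Fin A.N → ℂ → ℝ} {v : C → ℝ} {m : C → ℤ} (hm : (Function.support m).Finite)
    (h : ∀ i, ∀ z ∈ ball (0 : ℂ) A.R, ∃ p : ℂ → ℝ, ContDiffAt ℝ 2 p z ∧ 0 < p z ∧
      β i z = lp (fun w => Real.log (p w)) z ∧
      ∀ᶠ w in 𝓝[≠] z, v ((A.e i).symm w) = ‖w - z‖ ^ (2 * m ((A.e i).symm z)) * p w) :
    A.Ct β ∧ A.Dn β ∧ A.int β = -Real.pi * ((∑ᶠ x, m x : ℤ) : ℝ) := by
  classical
  choose G Λ h1 h2 h3 h4 using A.exists_green
  set T := hm.toFinset with hT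
  obtain ⟨a, b, c⟩ := int_reg (A := A) (f := fun y => Real.log (v y) - ∑ x ∈ T, (m x : ℝ) * G x y)
    (γ := fun i z => β i z - ∑ x ∈ T, (m x : ℝ) * Λ x i z) fun i z hz => by
      obtain ⟨p, p1, p2, p3, p4⟩ := h i z hz
      choose U U1 U2 U3 using fun x => h4 x i z hz
      have c1 := p1.log p2.ne'
      have c2 : ∀ x, ContDiffAt ℝ 2 (fun w => (m x : ℝ) * U x w) z := fun x =>
        contDiffAt_const.mul ((U1 x).of_le two_le)
      refine ⟨fun w => Real.log (p w) - ∑ x ∈ T, (m x : ℝ) * U x w,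
        c1.sub (ContDiffAt.sum fun x _ => c2 x), ?_, ?_⟩
      · rw [lp_sub c1 (ContDiffAt.sum fun x _ => c2 x), p3, lp_sum T fun x _ => c2 x]
        simp only [fun x => lp_cmul (m x) ((U1 x).of_le two_le), U2]
      · filter_upwards [p4, (eventually_all_finset T).2 fun x _ => U3 x, self_mem_nhdsWithin,
          nhdsWithin_le_nhds (p1.continuousAt.eventually_ne p2.ne')] with w w1 w2 w3 w4
        have n : ‖w - z‖ ≠ 0 := norm_ne_zero_iff.2 (sub_ne_zero.2 w3)
        rw [w1, Real.log_mul (zpow_ne_zero _ n) w4, Real.log_zpow,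
          Finset.sum_congr rfl fun x hx => by rw [w2 x hx, mul_add, mul_ite, mul_zero],
          Finset.sum_add_distrib, Finset.sum_ite_eq, normSq_eq_norm_sq, Real.log_pow]
        split_ifs with t
        · push_cast; ring
        · have : m ((A.e i).symm z) = 0 := by simpa [hT] using t
          rw [this]; push_cast; ring
  have d1 : A.Ct fun i z => ∑ x ∈ T, (m x : ℝ) * Λ x i z := fun i =>
    continuousOn_finsetSum _ fun x _ => continuousOn_const.mul ((h1 x).ct i)
  have d2 : A.Dn fun i z => ∑ x ∈ T, (m x : ℝ) * Λ x i z :=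
    Dn.sum T fun x _ => (h2 x).smul (fn_const (m x : ℝ))
  have e : β = fun i z => (β i z - ∑ x ∈ T, (m x : ℝ) * Λ x i z) +
      ∑ x ∈ T, (m x : ℝ) * Λ x i z := by funext i z; ring
  refine ⟨e ▸ fun i => (a i).add (d1 i), e ▸ b.add d2, ?_⟩
  rw [e, int_add a.in d1.in, c, zero_add, int_sum (u := fun x i z => (m x : ℝ) * Λ x i z) T
    fun x _ => Ct.in fun i => continuousOn_const.mul ((h1 x).ct i), finsum_eq_sum _ hm]
  simp only [int_mul, h3]
  push_cast
  rw [← Finset.sum_mul, mul_comm]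

/-- the form of `P275AD.PL` -/
theorem pl_ad (A : At C) (β : Fin A.N → ℂ → ℝ) (v : C → ℝ) (m : C → ℤ) (_ : A.Dn β) (_ : A.Ct β)
    (hm : (Function.support m).Finite)
    (h : ∀ i, ∀ z ∈ ball (0 : ℂ) A.R, ∃ p : ℂ → ℝ, ContDiffAt ℝ 2 p z ∧ 0 < p z ∧
      β i z = lp (fun w => Real.log (p w)) z ∧
      ∀ᶠ w in 𝓝[≠] z, v ((A.e i).symm w) = ‖w - z‖ ^ (2 * m ((A.e i).symm z)) * p w) :
    A.int β = -Real.pi * ((∑ᶠ x, m x : ℤ) : ℝ) := (pl' hm h).2.2

end At

end Vale.Agent.P275GC
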