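import Vale.Agent.P275GC.Pu
import Mathlib.MeasureTheory.Function.Jacobian
import Mathlib.MeasureTheory.Integral.DominatedConvergence
import Mathlib.Analysis.Calculus.LineDeriv.IntegrationByParts

/-!
# P275, block GC: the integral of a density
-/

set_option linter.unusedSectionVars false

open scoped Topology ComplexConjugate ContDiff
open Set Filter Metric MeasureTheory Complex

noncomputable section

namespace Vale.Agent.P275GC

open Vale.Agent.P281Z.Hm

theorem det_mul (a : ℂ) :
    ((ContinuousLinearMap.toSpanSingleton ℂ a).restrictScalars ℝ).det = normSq a := by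
  rw [ContinuousLinearMap.det, ← LinearMap.det_toMatrix Complex.basisOneI, Matrix.det_fin_two]
  simp [LinearMap.toMatrix_apply, normSq_apply]

namespace At

variable {C : Type} [TopologicalSpace C] {A : At C} {i j k : Fin A.N} {z : ℂ} {x : C}
  {F G : Type} [NormedAddCommGroup F] [NormedSpace ℝ F] [NormedAddCommGroup G] [NormedSpace ℝ G]
  {u v : Fin A.N → ℂ → F}

/-! ### algebra of compatible families -/

theorem Fn.map {F G : Type} {u : Fin A.N → ℂ → F} (hu : A.Fn u) (f : F → G) :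
    A.Fn fun i z => f (u i z) := fun i j z h => congrArg f (hu i j z h)

theorem Fn.map₂ {F G H : Type} {u : Fin A.N → ℂ → F} {v : Fin A.N → ℂ → G} (hu : A.Fn u)
    (hv : A.Fn v) (f : F → G → H) : A.Fn fun i z => f (u i z) (v i z) :=
  fun i j z h => congrArg₂ f (hu i j z h) (hv i j z h)

theorem fn_const {F : Type} (c : F) : A.Fn fun _ _ => c := fun _ _ _ _ => rfl

theorem dn_zero : A.Dn fun _ _ => (0 : F) := fun _ _ _ _ => (smul_zero _).symm

theorem Dn.add (hu : A.Dn u) (hv : A.Dn v) : A.Dn fun i z => u i z + v i z := fun i j z h => by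
  beta_reduce; rw [hu i j z h, hv i j z h, smul_add]

theorem Dn.neg (hu : A.Dn u) : A.Dn fun i z => -u i z := fun i j z h => by
  beta_reduce; rw [hu i j z h, smul_neg]

theorem Dn.sub (hu : A.Dn u) (hv : A.Dn v) : A.Dn fun i z => u i z - v i z := fun i j z h => by
  beta_reduce; rw [hu i j z h, hv i j z h, smul_sub]

theorem Dn.sum {ι : Type} (s : Finset ι) {u : ι → Fin A.N → ℂ → F} (hu : ∀ a ∈ s, A.Dn (u a)) :
    A.Dn fun i z => ∑ a ∈ s, u a i z := fun i j z h => by
  beta_reduce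
  rw [Finset.smul_sum]
  exact Finset.sum_congr rfl fun a ha => hu a ha i j z h

theorem Dn.lin (hu : A.Dn u) (L : F →ₗ[ℝ] G) : A.Dn fun i z => L (u i z) := fun i j z h => by
  beta_reduce; rw [hu i j z h, map_smul]

theorem Dn.norm (hu : A.Dn u) : A.Dn fun i z => ‖u i z‖ := fun i j z h => by
  beta_reduce; rw [hu i j z h, norm_smul, Real.norm_of_nonneg (normSq_nonneg _), smul_eq_mul]

/-- function times density -/
theorem Dn.smul {𝕜 : Type} [SMul 𝕜 F] [SMulCommClass 𝕜 ℝ F] {f : Fin A.N → ℂ → 𝕜} (hu : A.Dn u)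
    (hf : A.Fn f) : A.Dn fun i z => f i z • u i z := fun i j z h => by
  beta_reduce; rw [hu i j z h, hf i j z h, smul_comm]

/-- scalar density times vector valued function -/
theorem Dn.smul_fn {w : Fin A.N → ℂ → ℝ} (hw : A.Dn w) (hu : A.Fn u) :
    A.Dn fun i z => w i z • u i z := fun i j z h => by
  beta_reduce; rw [hu i j z h, hw i j z h, smul_assoc]

/-- the quotient of two densities is a function -/
theorem Dn.div {w : Fin A.N → ℂ → ℝ} (hu : A.Dn u) (hw : A.Dn w) :
    A.Fn fun i z => (w i z)⁻¹ • u i z := fun i j z h => by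
  beta_reduce
  rw [hu i j z h, hw i j z h, smul_eq_mul, smul_smul, mul_inv, mul_right_comm,
    inv_mul_cancel₀ (normSq_pos.2 (d_ne h)).ne', one_mul]

theorem image_O (i j : Fin A.N) : A.tr i j '' A.O i j = A.O j i :=
  Subset.antisymm (by rintro _ ⟨z, h, rfl⟩; exact tr_mem h) fun w h => ⟨_, tr_mem h, tr_inv h⟩

theorem injOn_tr (i j : Fin A.N) : InjOn (A.tr i j) (A.O i j) := fun a ha b hb e => by
  rw [← tr_inv ha, e, tr_inv hb]

/-- change of variables -/
theorem Dn.cv_set (hu : A.Dn u) {s : Set ℂ} (hs : MeasurableSet s) (h : s ⊆ A.O i j) :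
    ∫ w in A.tr i j '' s, u j w = ∫ z in s, u i z := by
  rw [integral_image_eq_integral_abs_det_fderiv_smul volume hs (fun z hz =>
    ((has_tr (h hz)).hasFDerivAt.restrictScalars ℝ).hasFDerivWithinAt) ((injOn_tr i j).mono h)]
  refine setIntegral_congr_fun hs fun z hz => ?_
  rw [det_mul, abs_of_nonneg (normSq_nonneg _), hu i j z (h hz)]

theorem Dn.cv (hu : A.Dn u) (i j : Fin A.N) : ∫ w in A.O j i, u j w = ∫ z in A.O i j, u i z := by
  rw [← hu.cv_set (O_open i j).measurableSet Subset.rfl, image_O]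

theorem Dn.integ_cv (hu : A.Dn u) {s : Set ℂ} (hs : MeasurableSet s) (h : s ⊆ A.O i j) :
    IntegrableOn (u j) (A.tr i j '' s) ↔ IntegrableOn (u i) s := by
  rw [integrableOn_image_iff_integrableOn_abs_det_fderiv_smul volume hs (fun z hz =>
    ((has_tr (h hz)).hasFDerivAt.restrictScalars ℝ).hasFDerivWithinAt) ((injOn_tr i j).mono h)]
  refine integrableOn_congr_fun (fun z hz => ?_) hs
  rw [det_mul, abs_of_nonneg (normSq_nonneg _), hu i j z (h hz)]

/-! ### the integral -/

/-- integrable families -/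
def In (A : At C) (u : Fin A.N → ℂ → F) : Prop := ∀ i, Integrable fun z => A.χ i z • u i z

theorem int_congr (h : ∀ i z, ‖z‖ < 1 → u i z = v i z) : A.int u = A.int v := by
  refine Finset.sum_congr rfl fun i _ => integral_congr_ae (Eventually.of_forall fun z => ?_)
  beta_reduce
  by_cases hz : 1 ≤ ‖z‖
  · rw [χ_zero hz, zero_smul, zero_smul]
  · rw [h i z (not_le.1 hz)]

theorem int_congr_ae (h : ∀ i, ∀ᵐ z, ‖z‖ < 1 → u i z = v i z) : A.int u = A.int v := by
  refine Finset.sum_congr rfl fun i _ => integral_congr_ae ((h i).mono fun z a => ?_)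
  beta_reduce
  by_cases hz : 1 ≤ ‖z‖
  · rw [χ_zero hz, zero_smul, zero_smul]
  · rw [a (not_le.1 hz)]

theorem int_congr' (h : ∀ i, ∀ z ∈ ball (0 : ℂ) A.R, u i z = v i z) : A.int u = A.int v :=
  int_congr fun i z hz => h i z (mem_of_le hz.le)

theorem In.congr (hu : A.In u) (h : ∀ i z, ‖z‖ < 1 → u i z = v i z) : A.In v := fun i =>
  (hu i).congr (Eventually.of_forall fun z => by
    beta_reduce
    by_cases hz : 1 ≤ ‖z‖
    · rw [χ_zero hz, zero_smul, zero_smul]
    · rw [h i z (not_le.1 hz)])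

theorem int_zero : A.int (fun _ _ => (0 : F)) = 0 := by simp [int]

theorem In.add (hu : A.In u) (hv : A.In v) : A.In fun i z => u i z + v i z := fun i => by
  simp only [smul_add]; exact (hu i).add (hv i)

theorem In.neg (hu : A.In u) : A.In fun i z => -u i z := fun i => by
  simp only [smul_neg]; exact (hu i).neg

theorem In.sub (hu : A.In u) (hv : A.In v) : A.In fun i z => u i z - v i z := fun i => by
  simp only [smul_sub]; exact (hu i).sub (hv i)

theorem In.sum {ι : Type} (s : Finset ι) {u : ι → Fin A.N → ℂ → F} (hu : ∀ a ∈ s, A.In (u a)) :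
    A.In fun i z => ∑ a ∈ s, u a i z := fun i => by
  simpa only [Finset.smul_sum] using integrable_finsetSum s fun a ha => hu a ha i

theorem In.clm (hu : A.In u) (L : F →L[ℝ] G) : A.In fun i z => L (u i z) := fun i => by
  simpa only [map_smul] using L.integrable_comp (hu i)

theorem In.norm (hu : A.In u) : A.In fun i z => ‖u i z‖ := fun i => by
  simpa only [norm_smul, Real.norm_of_nonneg χ_nonneg, smul_eq_mul] using (hu i).norm

theorem int_add (hu : A.In u) (hv : A.In v) :
    A.int (fun i z => u i z + v i z) = A.int u + A.int v := by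
  simp only [int, smul_add, ← Finset.sum_add_distrib]
  exact Finset.sum_congr rfl fun i _ => integral_add (hu i) (hv i)

theorem int_neg (u : Fin A.N → ℂ → F) : A.int (fun i z => -u i z) = -A.int u := by
  simp only [int, smul_neg, integral_neg, Finset.sum_neg_distrib]

theorem int_sub (hu : A.In u) (hv : A.In v) :
    A.int (fun i z => u i z - v i z) = A.int u - A.int v := by
  simp only [int, smul_sub, ← Finset.sum_sub_distrib]
  exact Finset.sum_congr rfl fun i _ => integral_sub (hu i) (hv i)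

theorem int_sum {ι : Type} (s : Finset ι) {u : ι → Fin A.N → ℂ → F} (hu : ∀ a ∈ s, A.In (u a)) :
    A.int (fun i z => ∑ a ∈ s, u a i z) = ∑ a ∈ s, A.int (u a) := by
  simp only [int, Finset.smul_sum]
  rw [Finset.sum_comm]
  exact Finset.sum_congr rfl fun i _ => integral_finsetSum s fun a ha => hu a ha i

theorem int_smul {𝕜 : Type} [RCLike 𝕜] [NormedSpace 𝕜 F] [SMulCommClass ℝ 𝕜 F] (c : 𝕜)
    (u : Fin A.N → ℂ → F) : A.int (fun i z => c • u i z) = c • A.int u := by
  simp only [int, Finset.smul_sum, ← integral_smul, smul_comm c]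

theorem int_mul (c : ℝ) (u : Fin A.N → ℂ → ℝ) : A.int (fun i z => c * u i z) = c * A.int u :=
  int_smul c u

theorem int_cmul (c : ℂ) (u : Fin A.N → ℂ → ℂ) : A.int (fun i z => c * u i z) = c * A.int u :=
  int_smul c u

theorem int_clm [CompleteSpace F] [CompleteSpace G] (hu : A.In u) (L : F →L[ℝ] G) :
    A.int (fun i z => L (u i z)) = L (A.int u) := by
  simp only [int, map_sum, ← map_smul]
  exact Finset.sum_congr rfl fun i _ => L.integral_comp_comm (hu i)

theorem int_re {u : Fin A.N → ℂ → ℂ} (hu : A.In u) :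
    A.int (fun i z => (u i z).re) = (A.int u).re := int_clm hu reCLM

theorem int_im {u : Fin A.N → ℂ → ℂ} (hu : A.In u) :
    A.int (fun i z => (u i z).im) = (A.int u).im := int_clm hu imCLM

theorem int_ofReal (u : Fin A.N → ℂ → ℝ) :
    A.int (fun i z => (u i z : ℂ)) = ((A.int u : ℝ) : ℂ) := by
  simp only [int, ofReal_sum, ← integral_complex_ofReal, smul_eq_mul, real_smul, ofReal_mul]

theorem int_conj (u : Fin A.N → ℂ → ℂ) :
    A.int (fun i z => conj (u i z)) = conj (A.int u) := by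
  simp only [int, map_sum, ← integral_conj, real_smul, map_mul, conj_ofReal]

theorem int_smul_const [CompleteSpace F] (w : Fin A.N → ℂ → ℝ) (c : F) :
    A.int (fun i z => w i z • c) = A.int w • c := by
  simp only [int, ← smul_assoc, integral_smul_const, Finset.sum_smul]

theorem int_nonneg {u : Fin A.N → ℂ → ℝ} (h : ∀ i z, ‖z‖ < 1 → 0 ≤ u i z) : 0 ≤ A.int u := by
  refine Finset.sum_nonneg fun i _ => integral_nonneg fun z => ?_
  by_cases hz : 1 ≤ ‖z‖
  · simp [χ_zero hz]
  · exact mul_nonneg χ_nonneg (h i z (not_le.1 hz))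

theorem int_mono_ae {u v : Fin A.N → ℂ → ℝ} (hu : A.In u) (hv : A.In v)
    (h : ∀ i, ∀ᵐ z, ‖z‖ < 1 → u i z ≤ v i z) : A.int u ≤ A.int v := by
  refine Finset.sum_le_sum fun i _ => integral_mono_ae (hu i) (hv i) ((h i).mono fun z a => ?_)
  by_cases hz : 1 ≤ ‖z‖
  · simp [χ_zero hz]
  · exact mul_le_mul_of_nonneg_left (a (not_le.1 hz)) χ_nonneg

theorem int_mono {u v : Fin A.N → ℂ → ℝ} (hu : A.In u) (hv : A.In v)
    (h : ∀ i z, ‖z‖ < 1 → u i z ≤ v i z) : A.int u ≤ A.int v :=
  int_mono_ae hu hv fun i => Eventually.of_forall (h i)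

theorem norm_int_le (u : Fin A.N → ℂ → F) : ‖A.int u‖ ≤ A.int fun i z => ‖u i z‖ := by
  refine norm_sum_le_of_le _ fun i _ => (norm_integral_le_integral_norm _).trans (le_of_eq ?_)
  simp only [norm_smul, Real.norm_of_nonneg χ_nonneg, smul_eq_mul]

/-- dominated convergence -/
theorem tendsto_int {ι : Type} {l : Filter ι} [l.IsCountablyGenerated]
    {u : ι → Fin A.N → ℂ → F} {b : Fin A.N → ℂ → ℝ} (hu : ∀ᶠ n in l, A.In (u n)) (hb : A.In b)
    (h1 : ∀ᶠ n in l, ∀ i, ∀ᵐ z, ‖z‖ < 1 → ‖u n i z‖ ≤ b i z)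
    (h2 : ∀ i, ∀ᵐ z, ‖z‖ < 1 → Tendsto (fun n => u n i z) l (𝓝 (v i z))) :
    Tendsto (fun n => A.int (u n)) l (𝓝 (A.int v)) := by
  refine tendsto_finsetSum _ fun i _ => tendsto_integral_filter_of_dominated_convergence
    (fun z => A.χ i z • b i z) (hu.mono fun n a => (a i).1) (h1.mono fun n a => (a i).mono
      fun z c => ?_) (hb i) ((h2 i).mono fun z c => ?_)
  · rw [norm_smul, Real.norm_of_nonneg χ_nonneg]
    by_cases hz : 1 ≤ ‖z‖
    · simp [χ_zero hz]
    · exact mul_le_mul_of_nonneg_left (c (not_le.1 hz)) χ_nonneg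
  · by_cases hz : 1 ≤ ‖z‖
    · simp only [χ_zero hz, zero_smul]
      exact tendsto_const_nhds
    · exact (c (not_le.1 hz)).const_smul _

variable [T2Space C]

theorem in_of_integ (h : ∀ i, IntegrableOn (u i) (ball 0 1)) : A.In u := fun i => by
  refine (integrableOn_iff_integrable_of_support_subset (s := ball 0 1) fun z hz => ?_).1 ?_
  · exact mem_ball_zero_iff.2 (not_le.1 fun a => hz (by simp [χ_zero a]))
  · exact Integrable.bdd_smul (h i) 1 (cd_χ i).continuous.aestronglyMeasurable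
      (Eventually.of_forall fun z => by rw [Real.norm_of_nonneg χ_nonneg]; exact χ_le_one)

theorem Ct.integ (hu : A.Ct u) (i : Fin A.N) {K : Set ℂ} (hK : IsCompact K)
    (hR : K ⊆ ball 0 A.R) : IntegrableOn (u i) K := ((hu i).mono hR).integrableOn_compact hK

theorem Ct.in (hu : A.Ct u) : A.In u := in_of_integ fun i =>
  (hu.integ i (isCompact_closedBall 0 1) A.unit_sub).mono_set ball_subset_closedBall

theorem cont_χ_smul (hu : ContinuousOn (u i) (ball 0 A.R)) : Continuous fun z => A.χ i z • u i z :=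
  (cd_of_ball (A := A) (m := 0) (isCompact_closedBall 0 1) A.unit_sub (contDiffOn_zero.2
    ((cd_χ i).continuous.continuousOn.smul hu)) fun z a => by
      rw [Pi.smul_apply', χ_zero (not_le.1 fun b => a (mem_closedBall_zero_iff.2 b)).le,
        zero_smul]).continuous

/-- a nonnegative continuous family with integral zero vanishes -/
theorem int_eq_zero {u : Fin A.N → ℂ → ℝ} (hu : A.Ct u) (h : ∀ i z, ‖z‖ < 1 → 0 ≤ u i z)
    (h0 : A.int u = 0) (i : Fin A.N) (hz : ‖z‖ < 1) : u i z = 0 := by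
  have a : ∀ i z, 0 ≤ A.χ i z • u i z := fun i z => by
    by_cases hz : 1 ≤ ‖z‖
    · simp [χ_zero hz]
    · exact mul_nonneg χ_nonneg (h i z (not_le.1 hz))
  have b := (Finset.sum_eq_zero_iff_of_nonneg fun i _ => integral_nonneg (a i)).1 h0 i
    (Finset.mem_univ i)
  have c := (Continuous.ae_eq_iff_eq volume (cont_χ_smul (hu i)) continuous_zero).1
    ((integral_eq_zero_iff_of_nonneg (a i) (hu.in i)).1 b)
  exact (mul_eq_zero.1 (congrFun c z)).resolve_left (χ_pos hz).ne'

theorem Dn.eq_zero {u : Fin A.N → ℂ → ℝ} (hd : A.Dn u) (hu : A.Ct u)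
    (h : ∀ i z, ‖z‖ < 1 → 0 ≤ u i z) (h0 : A.int u = 0) (i : Fin A.N)
    (hz : z ∈ ball (0 : ℂ) A.R) : u i z = 0 := by
  obtain ⟨j, a, b⟩ := ex_unit hz i
  rw [hd i j z a, int_eq_zero hu h h0 j b, smul_zero]

theorem int_pos {u : Fin A.N → ℂ → ℝ} (hu : A.Ct u) (h : ∀ i z, ‖z‖ < 1 → 0 ≤ u i z)
    (hz : ‖z‖ < 1) (h0 : u i z ≠ 0) : 0 < A.int u :=
  (int_nonneg h).lt_of_ne fun a => h0 (int_eq_zero hu h a.symm i hz)

/-- the total area -/
def vol (A : At C) : ℝ := A.int A.ρ

theorem vol_pos [Nonempty C] : 0 < A.vol := by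
  obtain ⟨i, -, b⟩ := A.cov (Classical.arbitrary C)
  exact int_pos sm_ρ.ct (fun _ _ h => (ρ_pos (mem_of_le h.le)).le) b (ρ_pos (i := i)
    (mem_of_le b.le)).ne'

theorem norm_int_le_vol (hu : A.In u) {M : ℝ} (h : ∀ i z, ‖z‖ < 1 → ‖u i z‖ ≤ M * A.ρ i z) :
    ‖A.int u‖ ≤ M * A.vol := by
  rw [vol, ← int_mul]
  exact (norm_int_le u).trans (int_mono hu.norm (Ct.in fun i => continuousOn_const.mul
    (sm_ρ.ct i)) h)

theorem integ_φ {s : Set ℂ} (hs : MeasurableSet s) (hR : s ⊆ ball 0 A.R)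
    (h : IntegrableOn (u j) s) (i : Fin A.N) : IntegrableOn (fun z => A.φ i j z • u j z) s :=
  Integrable.bdd_smul h 1 ((((sm_φ i).ct j).mono hR).aestronglyMeasurable hs)
    (Eventually.of_forall fun z => by rw [Real.norm_of_nonneg φ_nonneg]; exact φ_le_one)

theorem int_piece (hu : A.Dn u) (h0 : ∀ i, ∀ z ∈ ball (0 : ℂ) A.R, z ∉ A.O i j → u i z = 0)
    (i : Fin A.N) : ∫ z, A.χ i z • u i z = ∫ z in ball 0 A.R, A.φ i j z • u j z := by
  rw [setIntegral_eq_of_subset_of_forall_sdiff_eq_zero (s := A.O j i) isOpen_ball.measurableSet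
    (fun _ h => h.1) fun z h => by rw [φ_not h.1 h.2, zero_smul], (hu.smul (fn_φ i)).cv i j,
    setIntegral_congr_fun (g := fun z => A.χ i z • u i z) (O_open i j).measurableSet
      fun z h => by beta_reduce; rw [φ_self h.1]]
  refine (setIntegral_eq_integral_of_forall_compl_eq_zero fun z h => ?_).symm
  by_cases hz : 1 ≤ ‖z‖
  · rw [χ_zero hz, zero_smul]
  · rw [h0 i z (mem_of_le (not_le.1 hz).le) h, smul_zero]

/-- the integral of a density with support in one chart -/
theorem int_loc (hu : A.Dn u) (h0 : ∀ i, ∀ z ∈ ball (0 : ℂ) A.R, z ∉ A.O i j → u i z = 0)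
    (h : IntegrableOn (u j) (ball 0 A.R)) : A.int u = ∫ z in ball 0 A.R, u j z := by
  simp only [int, int_piece hu h0]
  rw [← integral_finsetSum _ fun i _ => integ_φ isOpen_ball.measurableSet Subset.rfl h i]
  simp only [← Finset.sum_smul, sum_φ, one_smul]

/-- the density defined by a function of the coordinate of one chart -/
def dn (A : At C) (j : Fin A.N) (f : ℂ → F) (i : Fin A.N) (z : ℂ) : F :=
  normSq (A.d i j z) • A.ext j f ((A.e i).symm z)

theorem dn_dn (f : ℂ → F) : A.Dn (A.dn j f) := fun i k z h => by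
  rw [dn, dn, symm_tr h]
  by_cases h' : z ∈ A.O i j
  · rw [A.cc_d.mul i k j z h h', map_mul, mul_smul]
  · rw [ext_not fun a => h' ⟨h.1, a⟩, smul_zero, smul_zero, smul_zero]

theorem dn_self (f : ℂ → F) (h : z ∈ ball (0 : ℂ) A.R) : A.dn j f j z = f z := by
  rw [dn, A.cc_d.one j z h, ext_symm h, map_one, one_smul]

theorem dn_not (f : ℂ → F) (h : z ∈ ball (0 : ℂ) A.R) (h' : z ∉ A.O i j) : A.dn j f i z = 0 := by
  rw [dn, ext_not fun a => h' ⟨h, a⟩, smul_zero]

theorem dn_tr (f : ℂ → F) (h : z ∈ A.O i j) :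
    A.dn j f i z = normSq (A.d i j z) • f (A.tr i j z) := by rw [dn, ext_tr h]

theorem int_dn {f : ℂ → F} (h : IntegrableOn f (ball 0 A.R)) :
    A.int (A.dn j f) = ∫ z in ball 0 A.R, f z := by
  rw [int_loc (dn_dn f) (fun _ _ a b => dn_not f a b) (h.congr_fun (fun z a => (dn_self f a).symm)
    isOpen_ball.measurableSet)]
  exact setIntegral_congr_fun isOpen_ball.measurableSet fun z a => dn_self f a

theorem in_dn {f : ℂ → F} (h : IntegrableOn f (ball 0 A.R)) : A.In (A.dn j f) := fun i => by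
  have a : IntegrableOn (A.dn j f i) (A.O i j) := by
    rw [← (dn_dn f).integ_cv (O_open i j).measurableSet Subset.rfl, image_O]
    exact (h.mono_set fun _ a => a.1).congr_fun (fun z a => (dn_self f a.1).symm)
      (O_open j i).measurableSet
  refine (integrableOn_iff_integrable_of_support_subset (s := A.O i j) fun z hz => ?_).1 ?_
  · by_contra b
    by_cases c : 1 ≤ ‖z‖
    · exact hz (by simp [χ_zero c])
    · exact hz (by simp [dn_not f (mem_of_le (not_le.1 c).le) b])
  · exact Integrable.bdd_smul a 1 (cd_χ i).continuous.aestronglyMeasurable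
      (Eventually.of_forall fun z => by rw [Real.norm_of_nonneg χ_nonneg]; exact χ_le_one)

/-- the integral over a part of a chart is at most the total integral -/
theorem setInt_le {u : Fin A.N → ℂ → ℝ} (hd : A.Dn u) (hu : A.In u)
    (h : ∀ i, ∀ z ∈ ball (0 : ℂ) A.R, 0 ≤ u i z) {s : Set ℂ} (hs : MeasurableSet s)
    (hR : s ⊆ ball 0 A.R) (hi : IntegrableOn (u j) s) : ∫ z in s, u j z ≤ A.int u := by
  have a : IntegrableOn (s.indicator (u j)) (ball 0 A.R) :=
    ((integrable_indicator_iff hs).2 hi).integrableOn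
  rw [← inter_eq_right.2 hR, ← setIntegral_indicator hs, ← int_dn (j := j) a]
  refine int_mono (in_dn a) hu fun i z hz => ?_
  by_cases b : z ∈ A.O i j
  · rw [dn_tr _ b, hd i j z b]
    exact mul_le_mul_of_nonneg_left (indicator_apply_le' (fun _ => le_rfl) fun _ =>
      h j _ (tr_ball b)) (normSq_nonneg _)
  · rw [dn_not _ (mem_of_le hz.le) b]
    exact h i z (mem_of_le hz.le)

/-- the integral of a function on `C` against the canonical density -/
def Ic (A : At C) (f : C → F) : F := A.int fun i z => A.ρ i z • A.pl f i z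

theorem in_Ic {f : C → F} (hf : Continuous f) : A.In fun i z => A.ρ i z • A.pl f i z :=
  Ct.in fun i => (sm_ρ.ct i).smul (ct_pl hf i)

theorem Ic_loc {f : C → F} (hf : Continuous f) {K : Set ℂ} (hK : IsCompact K)
    (hR : K ⊆ ball 0 A.R) (h0 : ∀ x, x ∉ (A.e j).symm '' K → f x = 0) :
    A.Ic f = ∫ z in K, A.ρ j z • f ((A.e j).symm z) := by
  have a : ∀ z ∈ ball (0 : ℂ) A.R \ K, A.ρ j z • A.pl f j z = 0 := fun z h => by
    rw [pl, h0, smul_zero]
    rintro ⟨w, b, c⟩
    exact h.2 ((A.e j).symm.injOn (mem_tgt.2 (hR b)) (mem_tgt.2 h.1) c ▸ b)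
  rw [Ic, int_loc (j := j) (dn_ρ.smul_fn (fn_pl f)) (fun i z h h' => by
    rw [pl, h0 _ (off_of_not hR h h'), smul_zero]) ((Ct.integ (fun i => (sm_ρ.ct i).smul
      (ct_pl hf i)) j hK hR).of_forall_sdiff_eq_zero isOpen_ball.measurableSet a)]
  exact setIntegral_eq_of_subset_of_forall_sdiff_eq_zero isOpen_ball.measurableSet hR a

theorem norm_Ic_le {f : C → F} (hf : Continuous f) {M : ℝ} (h : ∀ x, ‖f x‖ ≤ M) :
    ‖A.Ic f‖ ≤ M * A.vol := norm_int_le_vol (in_Ic hf) fun i z hz => by
  rw [norm_smul, Real.norm_of_nonneg (ρ_pos (mem_of_le hz.le)).le, mul_comm]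
  exact mul_le_mul_of_nonneg_right (h _) (ρ_pos (mem_of_le hz.le)).le

end At

end Vale.Agent.P275GC
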